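import Vale.Agent.P046.Phase.One.Tail

/-!
# A failure of the first phase event as a sum of tracked failures
-/

namespace Vale.Agent.P046.Phase.One

open Finset Chain Flags

variable {n : ℕ}

/-- A relative deviation is within the tolerance if the normalised one is. -/
lemma rel_iff {x N η : ℝ} (hN : 0 < N) (h : |x / N - 1| ≤ η) : |x - N| ≤ η * N := by
  rw [div_sub_one hN.ne', abs_div, abs_of_pos hN, div_le_iff₀ hN] at h
  exact h

lemma le_sum_ite {α : Type*} (s : Finset α) (p : α → Prop) [DecidablePred p] {a : α} (ha : a ∈ s)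
    (hp : p a) : (1 : ℝ) ≤ ∑ x ∈ s, if p x then 1 else 0 :=
  le_trans (if_pos hp).ge (single_le_sum (f := fun x => if p x then (1 : ℝ) else 0)
    (fun x _ => by split_ifs <;> norm_num) ha)

open Classical in
/-- An upper bound for the indicator of a failure of `GoodI`. -/
noncomputable def failSum (n i : ℕ) (F : St n) : ℝ :=
      (if (∀ a b d : Fin n, a ≠ b → a ≠ d → b ≠ d → (T3 F a b d : ℝ) ≤ tauE n i) ∧
          (∀ a x z : Fin n, a ≠ x → a ≠ z → (W3 F a x z : ℝ) ≤ kapE n i) then (0 : ℝ) else 1)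
      + (∑ e ∈ complete n, if {e} ⊆ F ∧ (envI n).y i < |yy i F e| then (1 : ℝ) else 0)
      + (∑ e ∈ complete n, if {e} ⊆ F ∧ (envI n).z i < |zc i F e| then (1 : ℝ) else 0)
      + (∑ e ∈ complete n, if {e} ⊆ F ∧ (envI n).v i < |vc i F e| then (1 : ℝ) else 0)
      + (∑ b : Fin n, if (∅ : St n) ⊆ F ∧ etaI n i < |(degV F b : ℝ) / (n * pp n i) - 1|
          then (1 : ℝ) else 0)
      + (∑ q : Fin n × Fin n × Fin n, if ({{q.1, q.2.1}, {q.1, q.2.2}} : St n) ⊆ F ∧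
          etaI n i < |(W3 F q.1 q.2.1 q.2.2 : ℝ) / ((n:ℝ) ^ 2 * pp n i ^ 5) - 1|
          then (1 : ℝ) else 0)
      + (∑ q ∈ (univ : Finset (Fin n)).offDiag, if (∅ : St n) ⊆ F ∧
          etaI n i < |(L2 F q.1 q.2 : ℝ) / ((n:ℝ) ^ 2 * pp n i ^ 5) - 1| then (1 : ℝ) else 0)
      + (if (∃ e ∈ F, (envI n).w i < |wc i F e|) ∨ (∃ b, (envI n).w i < |uc i F b|)
          then (1 : ℝ) else 0)

/-- Without any failure the state is good. -/
lemma good_of {i : ℕ} (hp : 1 ≤ (n:ℝ) * pp n i) {F : St n} (hs : Size i F)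
    (hstr : (∀ a b d : Fin n, a ≠ b → a ≠ d → b ≠ d → (T3 F a b d : ℝ) ≤ tauE n i) ∧
      (∀ a x z : Fin n, a ≠ x → a ≠ z → (W3 F a x z : ℝ) ≤ kapE n i))
    (hy : ∀ e ∈ F, |yy i F e| ≤ (envI n).y i) (hz : ∀ e ∈ F, |zc i F e| ≤ (envI n).z i)
    (hv : ∀ e ∈ F, |vc i F e| ≤ (envI n).v i)
    (hd : ∀ b, |(degV F b : ℝ) / (n * pp n i) - 1| ≤ etaI n i)
    (hk : ∀ a x z : Fin n, {a, x} ∈ F → {a, z} ∈ F →
      |(W3 F a x z : ℝ) / ((n:ℝ) ^ 2 * pp n i ^ 5) - 1| ≤ etaI n i)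
    (hl : ∀ b b' : Fin n, b ≠ b' →
      |(L2 F b b' : ℝ) / ((n:ℝ) ^ 2 * pp n i ^ 5) - 1| ≤ etaI n i)
    (hwu : ¬ ((∃ e ∈ F, (envI n).w i < |wc i F e|) ∨ (∃ b, (envI n).w i < |uc i F b|))) :
    GoodI (envI n) (etaI n) i F := by
  have hnp : 0 < (n:ℝ) * pp n i := by linarith
  have hn0 : (0 : ℝ) < n := by
    rcases eq_or_ne n 0 with h | h
    · subst h; simp at hnp
    · exact_mod_cast Nat.pos_of_ne_zero h
  have hpp : 0 < pp n i := (mul_pos_iff_of_pos_left hn0).1 hnp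
  have hN : 0 < (n:ℝ) ^ 2 * pp n i ^ 5 := by positivity
  simp only [not_or, not_exists, not_and, not_lt] at hwu
  exact ⟨⟨hs, hy, hz, hwu.1, hv, hstr.1, hstr.2⟩, hwu.2, fun b => rel_iff hnp (hd b),
    fun a x z h1 h2 => rel_iff hN (hk a x z h1 h2), fun b b' h => rel_iff hN (hl b b' h)⟩

lemma one_le_sum8 {a b c d e f g h : ℝ} (ha : 0 ≤ a) (hb : 0 ≤ b) (hc : 0 ≤ c) (hd : 0 ≤ d)
    (he : 0 ≤ e) (hf : 0 ≤ f) (hg : 0 ≤ g) (hh : 0 ≤ h)
    (hor : 1 ≤ a ∨ 1 ≤ b ∨ 1 ≤ c ∨ 1 ≤ d ∨ 1 ≤ e ∨ 1 ≤ f ∨ 1 ≤ g ∨ 1 ≤ h) :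
    1 ≤ a + b + c + d + e + f + g + h := by
  rcases hor with o | o | o | o | o | o | o | o <;> linarith

lemma ite_one_nonneg (p : Prop) [Decidable p] : (0 : ℝ) ≤ if p then 1 else 0 := by
  split_ifs <;> norm_num

lemma ite_zero_nonneg (p : Prop) [Decidable p] : (0 : ℝ) ≤ if p then 0 else 1 := by
  split_ifs <;> norm_num

open Classical in
/-- A failure of `GoodI` is a failure of one of the tracked bounds. -/
lemma fail_union {i : ℕ} (hp : 1 ≤ (n:ℝ) * pp n i) {F : St n} (hs : Size i F) :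
    (if GoodI (envI n) (etaI n) i F then (0 : ℝ) else 1) ≤ failSum n i F := by
  have hn8 : ∀ {α : Type} (s : Finset α) (p : α → Prop) [DecidablePred p],
      (0 : ℝ) ≤ ∑ x ∈ s, if p x then 1 else 0 := fun s p _ => sum_nonneg fun x _ => ite_one_nonneg _
  by_cases hgood : GoodI (envI n) (etaI n) i F
  · rw [if_pos hgood, failSum]
    exact add_nonneg (add_nonneg (add_nonneg (add_nonneg (add_nonneg (add_nonneg (add_nonneg
      (ite_zero_nonneg _) (hn8 _ _)) (hn8 _ _)) (hn8 _ _)) (hn8 _ _)) (hn8 _ _)) (hn8 _ _))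
      (ite_one_nonneg _)
  rw [if_neg hgood, failSum]
  refine one_le_sum8 (ite_zero_nonneg _) (hn8 _ _) (hn8 _ _) (hn8 _ _) (hn8 _ _) (hn8 _ _)
    (hn8 _ _) (ite_one_nonneg _) ?_
  by_cases hstr : (∀ a b d : Fin n, a ≠ b → a ≠ d → b ≠ d → (T3 F a b d : ℝ) ≤ tauE n i) ∧
      (∀ a x z : Fin n, a ≠ x → a ≠ z → (W3 F a x z : ℝ) ≤ kapE n i)
  swap
  · exact Or.inl (le_of_eq (if_neg hstr).symm)
  refine Or.inr ?_
  by_cases hy : ∀ e ∈ F, |yy i F e| ≤ (envI n).y i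
  swap
  · push Not at hy
    obtain ⟨e, he, hlt⟩ := hy
    exact Or.inl (le_sum_ite _ _ (hs.1 he) ⟨singleton_subset_iff.2 he, hlt⟩)
  refine Or.inr ?_
  by_cases hz : ∀ e ∈ F, |zc i F e| ≤ (envI n).z i
  swap
  · push Not at hz
    obtain ⟨e, he, hlt⟩ := hz
    exact Or.inl (le_sum_ite _ _ (hs.1 he) ⟨singleton_subset_iff.2 he, hlt⟩)
  refine Or.inr ?_
  by_cases hv : ∀ e ∈ F, |vc i F e| ≤ (envI n).v i
  swap
  · push Not at hv
    obtain ⟨e, he, hlt⟩ := hv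
    exact Or.inl (le_sum_ite _ _ (hs.1 he) ⟨singleton_subset_iff.2 he, hlt⟩)
  refine Or.inr ?_
  by_cases hd : ∀ b, |(degV F b : ℝ) / (n * pp n i) - 1| ≤ etaI n i
  swap
  · push Not at hd
    obtain ⟨b, hlt⟩ := hd
    exact Or.inl (le_sum_ite _ _ (mem_univ b) ⟨empty_subset _, hlt⟩)
  refine Or.inr ?_
  by_cases hk : ∀ a x z : Fin n, {a, x} ∈ F → {a, z} ∈ F →
      |(W3 F a x z : ℝ) / ((n:ℝ) ^ 2 * pp n i ^ 5) - 1| ≤ etaI n i
  swap
  · push Not at hk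
    obtain ⟨a, x, z, h1, h2, hlt⟩ := hk
    exact Or.inl (le_sum_ite _ _ (mem_univ (a, x, z))
      ⟨insert_subset h1 (singleton_subset_iff.2 h2), hlt⟩)
  refine Or.inr ?_
  by_cases hl : ∀ b b' : Fin n, b ≠ b' →
      |(L2 F b b' : ℝ) / ((n:ℝ) ^ 2 * pp n i ^ 5) - 1| ≤ etaI n i
  swap
  · push Not at hl
    obtain ⟨b, b', hne, hlt⟩ := hl
    exact Or.inl (le_sum_ite _ _ (mem_offDiag.2 ⟨mem_univ b, mem_univ b', hne⟩ :
      (b, b') ∈ (univ : Finset (Fin n)).offDiag) ⟨empty_subset _, hlt⟩)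
  refine Or.inr (le_of_eq (if_pos ?_).symm)
  by_contra hwu
  exact hgood (good_of hp hs hstr hy hz hv hd hk hl hwu)

end Vale.Agent.P046.Phase.One
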