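import Vale.Agent.P046.Flags.Basic

/-!
# The observables at the complete graph
-/

namespace Vale.Agent.P046.Phase.One

open Finset Chain Flags

variable {n : ℕ}

lemma mem_complete {e : Finset (Fin n)} : e ∈ complete n ↔ e.card = 2 := by
  simp [complete]

lemma pair_mem_complete {a c : Fin n} : ({a, c} : Finset (Fin n)) ∈ complete n ↔ a ≠ c := by
  rw [mem_complete]
  exact ⟨fun h he => by simp [he] at h, fun h => card_pair h⟩

lemma mem_triangles_complete {t : Finset (Fin n)} : t ∈ triangles (complete n) ↔ t.card = 3 := by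
  rw [mem_triangles_iff]
  exact ⟨fun h => h.1, fun h => ⟨h, fun g hg => mem_complete.2 (mem_powersetCard.1 hg).2⟩⟩

lemma card_triAt_complete {e : Finset (Fin n)} (he : e ∈ complete n) :
    (triAt (complete n) e).card = n - 2 := by
  have h2 := mem_complete.1 he
  have h : ((univ : Finset (Fin n)) \ e).card = n - 2 := by
    rw [card_sdiff_of_subset (subset_univ e), card_univ, Fintype.card_fin, h2]
  rw [← h]
  symm
  refine card_bij (fun c _ => insert c e) (fun c hc => ?_) (fun c hc d _ hcd => ?_) (fun t ht => ?_)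
  · have hce := (mem_sdiff.1 hc).2
    refine mem_filter.2 ⟨mem_triangles_complete.2 (by rw [card_insert_of_notMem hce, h2]), ?_⟩
    exact mem_powersetCard.2 ⟨subset_insert _ _, h2⟩
  · have : c ∈ insert d e := hcd ▸ mem_insert_self c e
    exact (mem_insert.1 this).resolve_right (mem_sdiff.1 hc).2
  · obtain ⟨h3, hes⟩ := mem_of_triAt ht
    obtain ⟨hsub, _⟩ := mem_powersetCard.1 hes
    obtain ⟨c, hc⟩ := card_eq_one.1 (show (t \ e).card = 1 by
      rw [card_sdiff_of_subset hsub, mem_triangles_complete.1 h3, h2])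
    have hct := mem_sdiff.1 (show c ∈ t \ e by rw [hc]; exact mem_singleton_self c)
    refine ⟨c, mem_sdiff.2 ⟨mem_univ c, hct.2⟩, ?_⟩
    exact eq_of_subset_of_card_le (insert_subset hct.1 hsub)
      (by rw [card_insert_of_notMem hct.2, h2, mem_triangles_complete.1 h3])

lemma mean_const {α : Type*} {A : Finset α} (hA : A.Nonempty) {z : α → ℝ} {c : ℝ}
    (h : ∀ a ∈ A, z a = c) : FlagDrift.mean A z = c := by
  rw [FlagDrift.mean, sum_congr rfl h, sum_const, nsmul_eq_mul]
  have : (A.card : ℝ) ≠ 0 := by exact_mod_cast hA.card_pos.ne'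
  field_simp

section

variable {E : St n} {f : Finset (Fin n) → ℝ} {c : ℝ} (hf : ∀ g ∈ E, f g = c)
include hf

lemma avgE_const {e : Finset (Fin n)} (h : (triAt E e).Nonempty) : avgE E f e = c := by
  refine mean_const h fun t ht => ?_
  obtain ⟨htE, he⟩ := mem_of_triAt ht
  rw [sum_congr rfl fun g hg => hf g (sides_sub htE (mem_of_mem_erase hg)), sum_const,
    card_erase_sides htE he, nsmul_eq_mul]
  push_cast; ring

lemma avgG_const (h : (triangles E).Nonempty) : avgG E f = c := by
  refine mean_const h fun t ht => ?_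
  rw [sum_congr rfl fun g hg => hf g (sides_sub ht hg), sum_const, card_sides ht, nsmul_eq_mul]
  push_cast; ring

lemma avgS_const {b : Fin n} (h : (triV E b).Nonempty) : avgS E f b = c := by
  refine mean_const h fun t ht => ?_
  obtain ⟨htE, hb⟩ := mem_of_triV ht
  rw [sum_congr rfl fun g hg => hf g (sides_sub htE (mem_filter.1 hg).1), sum_const,
    card_spokes htE hb, nsmul_eq_mul]
  push_cast; ring

end

variable (hn : 3 ≤ n)
include hn

lemma triAt_complete_nonempty {e : Finset (Fin n)} (he : e ∈ complete n) :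
    (triAt (complete n) e).Nonempty := by
  rw [← card_pos, card_triAt_complete he]; omega

lemma triV_complete_nonempty (b : Fin n) : (triV (complete n) b).Nonempty := by
  obtain ⟨t, ht1, -, ht3⟩ := exists_subsuperset_card_eq (subset_univ ({b} : Finset (Fin n)))
    (n := 3) (by simp) (by simpa using hn)
  exact ⟨t, mem_filter.2 ⟨mem_triangles_complete.2 ht3, ht1 (mem_singleton_self b)⟩⟩

lemma triangles_complete_nonempty : (triangles (complete n)).Nonempty :=
  ⟨_, (mem_of_triV (triV_complete_nonempty hn ⟨0, by omega⟩).choose_spec).1⟩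

lemma mu_zero : mu n 0 = n := by
  have : (n.choose 2 : ℝ) ≠ 0 := by exact_mod_cast (Nat.choose_pos (by omega : 2 ≤ n)).ne'
  simp [mu, pp, mm, this]

lemma yy_zero {e : Finset (Fin n)} (he : e ∈ complete n) :
    yy 0 (complete n) e = -2 / (n : ℝ) := by
  have : (n : ℝ) ≠ 0 := by exact_mod_cast (by omega : n ≠ 0)
  rw [yy, card_triAt_complete he, mu_zero hn, Nat.cast_sub (by omega : 2 ≤ n)]
  push_cast
  field_simp
  ring

lemma zz_zero {e : Finset (Fin n)} (he : e ∈ complete n) :
    zz 0 (complete n) e = -2 / (n : ℝ) :=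
  avgE_const (fun _ hg => yy_zero hn hg) (triAt_complete_nonempty hn he)

lemma avgG_zz_zero : avgG (complete n) (zz 0 (complete n)) = -2 / (n : ℝ) :=
  avgG_const (fun _ hg => zz_zero hn hg) (triangles_complete_nonempty hn)

lemma zc_zero {e : Finset (Fin n)} (he : e ∈ complete n) : zc 0 (complete n) e = 0 := by
  rw [zc, zz_zero hn he, avgG_const (fun _ hg => yy_zero hn hg) (triangles_complete_nonempty hn),
    sub_self]

lemma ww_zero {e : Finset (Fin n)} (he : e ∈ complete n) :
    ww 0 (complete n) e = -2 / (n : ℝ) :=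
  avgE_const (fun _ hg => zz_zero hn hg) (triAt_complete_nonempty hn he)

lemma wc_zero {e : Finset (Fin n)} (he : e ∈ complete n) : wc 0 (complete n) e = 0 := by
  rw [wc, ww_zero hn he, avgG_zz_zero hn, sub_self]

lemma uc_zero (b : Fin n) : uc 0 (complete n) b = 0 := by
  rw [uc, avgS_const (fun _ hg => ww_zero hn hg) (triV_complete_nonempty hn b), avgG_zz_zero hn,
    sub_self]

lemma vc_zero {e : Finset (Fin n)} (he : e ∈ complete n) : vc 0 (complete n) e = 0 := by
  have hphi : ∀ t ∈ triangles (complete n), ∀ g ∈ sides t,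
      phi 0 (complete n) g t = (2 * (-2 / (n : ℝ))) ^ 2 / 2 := by
    intro t ht g hg
    rw [phi, sum_congr rfl fun g' hg' => yy_zero hn (sides_sub ht (mem_of_mem_erase hg')),
      sum_const, card_erase_sides ht hg, nsmul_eq_mul]
    push_cast; ring
  have h1 : vv 0 (complete n) e = (2 * (-2 / (n : ℝ))) ^ 2 / 2 :=
    mean_const (triAt_complete_nonempty hn he) fun t ht =>
      hphi t (mem_of_triAt ht).1 e (mem_of_triAt ht).2
  have h2 : vG 0 (complete n) = (2 * (-2 / (n : ℝ))) ^ 2 / 2 :=
    mean_const (triangles_complete_nonempty hn) fun t ht => by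
      rw [sum_congr rfl fun g hg => hphi t ht g hg, sum_const, card_sides ht, nsmul_eq_mul]
      push_cast; ring
  rw [vc, h1, h2, sub_self]

lemma degV_zero (b : Fin n) :
    |(degV (complete n) b : ℝ) / (n * pp n 0) - 1| ≤ 7 / (n : ℝ) := by
  have hd : degV (complete n) b = n - 1 := by
    rw [degV, show ((univ : Finset (Fin n)).filter fun c => {b, c} ∈ complete n) = univ.erase b by
      ext c; simp [pair_mem_complete, eq_comm]]
    simp
  have hn0 : (0 : ℝ) < n := by exact_mod_cast (by omega : 0 < n)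
  have hch : (n.choose 2 : ℝ) ≠ 0 := by exact_mod_cast (Nat.choose_pos (by omega : 2 ≤ n)).ne'
  rw [hd, show pp n 0 = 1 by simp [pp, mm, hch], Nat.cast_sub (by omega : 1 ≤ n), mul_one,
    div_sub_one hn0.ne', abs_div, abs_of_pos hn0]
  refine div_le_div_of_nonneg_right ?_ hn0.le
  rw [Nat.cast_one, show (n : ℝ) - 1 - n = -1 by ring, abs_neg, abs_one]
  norm_num

omit hn in
/-- A count of ordered pairs missing at most three lines each way and the diagonal. -/
lemma count_ge {S T : Finset (Fin n)} (hS : S.card ≤ 3) (hT : T.card ≤ 3)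
    (p : Fin n × Fin n → Prop) [DecidablePred p]
    (h : ∀ q : Fin n × Fin n, q.1 ∉ S → q.2 ∉ T → q.1 ≠ q.2 → p q) :
    n ^ 2 ≤ ((univ : Finset (Fin n × Fin n)).filter p).card + 7 * n := by
  have hsub : (univ : Finset (Fin n × Fin n)) ⊆ ((univ : Finset (Fin n × Fin n)).filter p) ∪
      (S ×ˢ univ ∪ univ ×ˢ T ∪ (univ : Finset (Fin n)).diag) := by
    intro q _
    by_cases hp : p q
    · simp [hp]
    · simp only [mem_union, mem_filter, mem_univ, true_and, mem_product, mem_diag, and_true]
      by_contra hc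
      simp only [not_or] at hc
      exact hp (h q hc.2.1.1 hc.2.1.2 hc.2.2)
  have h1 := (card_le_card hsub).trans ((card_union_le _ _).trans (Nat.add_le_add_left
    ((card_union_le _ _).trans (Nat.add_le_add_right (card_union_le _ _) _)) _))
  simp only [card_univ, Fintype.card_prod, Fintype.card_fin, card_product, diag_card] at h1
  have := Nat.mul_le_mul_right n hS
  have := Nat.mul_le_mul_left n hT
  nlinarith

omit hn in
lemma rel_le (hn : 0 < n) {m : ℕ} (h1 : n ^ 2 ≤ m + 7 * n) (h2 : m ≤ n ^ 2) :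
    |(m : ℝ) / (n:ℝ) ^ 2 - 1| ≤ 7 / (n : ℝ) := by
  have hn0 : (0 : ℝ) < n := by exact_mod_cast hn
  have e1 : (n:ℝ) ^ 2 ≤ m + 7 * n := by exact_mod_cast h1
  have e2 : (m : ℝ) ≤ (n:ℝ) ^ 2 := by exact_mod_cast h2
  rw [div_sub_one (by positivity), abs_div, abs_of_pos (by positivity : (0:ℝ) < (n:ℝ) ^ 2),
    div_le_div_iff₀ (by positivity) hn0, abs_of_nonpos (by linarith)]
  nlinarith

lemma W3_zero {a x z : Fin n} :
    |(W3 (complete n) a x z : ℝ) / ((n:ℝ) ^ 2 * pp n 0 ^ 5) - 1| ≤ 7 / (n : ℝ) := by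
  have hch : (n.choose 2 : ℝ) ≠ 0 := by exact_mod_cast (Nat.choose_pos (by omega : 2 ≤ n)).ne'
  rw [show pp n 0 = 1 by simp [pp, mm, hch], one_pow, mul_one]
  refine rel_le (by omega) (count_ge (S := {a, x, z}) (T := {a, x, z}) card_le_three card_le_three _
    fun q h1 h2 h3 => ?_) ((card_le_univ _).trans (by simp [pow_two]))
  simp only [mem_insert, mem_singleton, not_or] at h1 h2
  simp only [pair_mem_complete]
  exact ⟨Ne.symm h1.1, Ne.symm h2.1, Ne.symm h1.2.1, h3, h2.2.2, h1.2.2, h2.2.1⟩

lemma L2_zero {b b' : Fin n} :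
    |(L2 (complete n) b b' : ℝ) / ((n:ℝ) ^ 2 * pp n 0 ^ 5) - 1| ≤ 7 / (n : ℝ) := by
  have hch : (n.choose 2 : ℝ) ≠ 0 := by exact_mod_cast (Nat.choose_pos (by omega : 2 ≤ n)).ne'
  rw [show pp n 0 = 1 by simp [pp, mm, hch], one_pow, mul_one]
  refine rel_le (by omega) (count_ge (S := {b, b'}) (T := {b, b'}) (card_le_two.trans (by norm_num))
    (card_le_two.trans (by norm_num)) _
    fun q h1 h2 h3 => ?_) ((card_le_univ _).trans (by simp [pow_two]))
  simp only [mem_insert, mem_singleton, not_or] at h1 h2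
  simp only [pair_mem_complete]
  exact ⟨Ne.symm h1.1, Ne.symm h2.1, Ne.symm h1.2, Ne.symm h2.2, h3⟩

end Vale.Agent.P046.Phase.One
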