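import Mathlib.Algebra.BigOperators.Group.Finset.Basic
import Mathlib.Data.Real.Basic
import Mathlib.Tactic

/-!
# Elementary inequalities for high even moments
-/

namespace Vale.Agent.P046.Phase.One

/-- Taylor bound at second order for a power. -/
lemma abs_taylor (m : ℕ) (a d : ℝ) :
    |(a + d) ^ (m + 2) - a ^ (m + 2) - ((m : ℝ) + 2) * a ^ (m + 1) * d| ≤
      ((m : ℝ) + 2) ^ 2 * (|a| + |d|) ^ m * d ^ 2 := by
  induction m with
  | zero =>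
    rw [show (a + d) ^ 2 - a ^ 2 - ((0 : ℕ) + 2 : ℝ) * a ^ 1 * d = d ^ 2 by push_cast; ring,
      abs_of_nonneg (sq_nonneg d)]
    norm_num
    nlinarith [sq_nonneg d]
  | succ m ih =>
    set T := (a + d) ^ (m + 2) - a ^ (m + 2) - ((m : ℝ) + 2) * a ^ (m + 1) * d with hT
    rw [show (a + d) ^ (m + 1 + 2) - a ^ (m + 1 + 2) - ((m + 1 : ℕ) + 2 : ℝ) * a ^ (m + 1 + 1) * d
      = (a + d) * T + ((m : ℝ) + 2) * a ^ (m + 1) * d ^ 2 by rw [hT]; push_cast; ring]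
    refine (abs_add_le _ _).trans ?_
    rw [abs_mul, abs_mul, abs_mul, abs_pow, abs_of_nonneg (sq_nonneg d),
      abs_of_nonneg (by positivity : (0 : ℝ) ≤ (m : ℝ) + 2)]
    have h1 : |a + d| * |T| ≤ (|a| + |d|) * (((m : ℝ) + 2) ^ 2 * (|a| + |d|) ^ m * d ^ 2) :=
      mul_le_mul (abs_add_le a d) ih (abs_nonneg _) (by positivity)
    have h2 : |a| ^ (m + 1) ≤ (|a| + |d|) ^ (m + 1) :=
      pow_le_pow_left₀ (abs_nonneg _) (le_add_of_nonneg_right (abs_nonneg _)) _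
    have h3 : ((m : ℝ) + 2) * |a| ^ (m + 1) * d ^ 2 ≤
        ((m : ℝ) + 2) * (|a| + |d|) ^ (m + 1) * d ^ 2 := by gcongr
    calc _ ≤ (((m : ℝ) + 2) ^ 2 + ((m : ℝ) + 2)) * (|a| + |d|) ^ (m + 1) * d ^ 2 := by
          refine (add_le_add h1 h3).trans_eq ?_; ring
      _ ≤ _ := by
          push_cast
          gcongr
          nlinarith

/-- One step of an even moment, with the jump bound used in the last term. -/
lemma pow_step (m : ℕ) {a d B : ℝ} (hd : |d| ≤ B) :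
    (a + d) ^ (2 * m + 2) ≤ a ^ (2 * m + 2) + (2 * (m : ℝ) + 2) * a ^ (2 * m + 1) * d
      + (2 * (m : ℝ) + 2) ^ 2 * 2 ^ (2 * m) * ((a ^ (2 * m) + B ^ (2 * m)) * d ^ 2) := by
  have h := (abs_le.1 (abs_taylor (2 * m) a d)).2
  push_cast at h
  have hB : 0 ≤ B := (abs_nonneg d).trans hd
  have h1 : (|a| + |d|) ^ (2 * m) ≤ 2 ^ (2 * m) * (a ^ (2 * m) + B ^ (2 * m)) := by
    refine (add_pow_le (abs_nonneg a) (abs_nonneg d) _).trans ?_
    refine mul_le_mul (pow_le_pow_right₀ one_le_two (by omega)) ?_ (by positivity) (by positivity)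
    rw [Even.pow_abs (even_two_mul m)]
    exact add_le_add le_rfl (pow_le_pow_left₀ (abs_nonneg _) hd _)
  have h2 := mul_le_mul_of_nonneg_right
    (mul_le_mul_of_nonneg_left h1 (sq_nonneg (2 * (m : ℝ) + 2))) (sq_nonneg d)
  linarith

/-- Young's inequality in the form used here. -/
lemma young (m : ℕ) {δ x y : ℝ} (hδ : 0 < δ) (hx : 0 ≤ x) (hy : 0 ≤ y) :
    x ^ m * y ≤ δ * x ^ (m + 1) + (1 / δ) ^ m * y ^ (m + 1) := by
  rcases le_total y (δ * x) with h | h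
  · refine le_add_of_le_of_nonneg ?_ (by positivity)
    calc x ^ m * y ≤ x ^ m * (δ * x) := mul_le_mul_of_nonneg_left h (by positivity)
      _ = δ * x ^ (m + 1) := by ring
  · refine le_add_of_nonneg_of_le (by positivity) ?_
    have hxy : x ≤ 1 / δ * y := by
      rw [one_div, ← div_eq_inv_mul, le_div_iff₀ hδ]; linarith
    calc x ^ m * y ≤ (1 / δ * y) ^ m * y :=
          mul_le_mul_of_nonneg_right (pow_le_pow_left₀ hx hxy m) hy
      _ = (1 / δ) ^ m * y ^ (m + 1) := by ring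

lemma young_abs (m : ℕ) {δ a y : ℝ} (hδ : 0 < δ) (hy : 0 ≤ y) :
    |a| ^ (2 * m + 1) * y ≤
      δ * a ^ (2 * m + 2) + (1 / δ) ^ (2 * m + 1) * y ^ (2 * m + 2) := by
  have h := young (2 * m + 1) hδ (abs_nonneg a) hy
  have hev : Even (2 * m + 2) := by simp [parity_simps]
  rw [show 2 * m + 1 + 1 = 2 * m + 2 from rfl, hev.pow_abs] at h
  exact h

lemma young_sq (m : ℕ) {δ a σ : ℝ} (hδ : 0 < δ) :
    a ^ (2 * m) * σ ^ 2 ≤ δ * a ^ (2 * m + 2) + (1 / δ) ^ m * σ ^ (2 * m + 2) := by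
  have h := young m hδ (sq_nonneg a) (sq_nonneg σ)
  rwa [← pow_mul, ← pow_mul, ← pow_mul, show 2 * (m + 1) = 2 * m + 2 by ring] at h

/-- The increment of an edge moment. -/
lemma edge_point (m : ℕ) {l C a r U σ I s B : ℝ} (hl : 1 ≤ l) (hC : 0 ≤ C) (hr : 0 ≤ r) (hU : 0 ≤ U)
    (hI : |I| ≤ 3 * r + 2 * U + σ) (hs : s ≤ σ ^ 2) (hB0 : 0 ≤ B) (hB : B ≤ σ) :
    (2 * (m : ℝ) + 2) * a ^ (2 * m + 1) * I + C * ((a ^ (2 * m) + B ^ (2 * m)) * s) ≤
      (6 * (2 * (m : ℝ) + 2) + 2 * C) * (a ^ (2 * m + 2) / l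
        + l ^ (2 * m + 1) * (r ^ (2 * m + 2) + U ^ (2 * m + 2) + σ ^ (2 * m + 2))) := by
  have hσ : 0 ≤ σ := hB0.trans hB
  have hlm : l ^ m ≤ l ^ (2 * m + 1) := pow_le_pow_right₀ hl (by omega)
  have hl1 : (1 : ℝ) ≤ l ^ (2 * m + 1) := one_le_pow₀ hl
  have hδ : (0 : ℝ) < 1 / l := by positivity
  have y1 := young_abs m hδ (a := a) hr
  have y2 := young_abs m hδ (a := a) hU
  have y3 := young_abs m hδ (a := a) hσ
  have y4 := young_sq m hδ (a := a) (σ := σ)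
  simp only [one_div_one_div, div_mul_eq_mul_div, one_mul] at y1 y2 y3 y4
  have h1 : a ^ (2 * m + 1) * I ≤ |a| ^ (2 * m + 1) * (3 * r + 2 * U + σ) := by
    refine (le_abs_self _).trans ?_
    rw [abs_mul, abs_pow]
    exact mul_le_mul_of_nonneg_left hI (by positivity)
  have ha0 : 0 ≤ a ^ (2 * m) := (even_two_mul m).pow_nonneg a
  have hA : 0 ≤ a ^ (2 * m + 2) / l := by
    have : 0 ≤ a ^ (2 * m + 2) := (show Even (2 * m + 2) by simp [parity_simps]).pow_nonneg a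
    positivity
  have hB2 : B ^ (2 * m) * σ ^ 2 ≤ σ ^ (2 * m + 2) := by
    rw [pow_add]; exact mul_le_mul_of_nonneg_right (pow_le_pow_left₀ hB0 hB _) (sq_nonneg σ)
  have h2 : (a ^ (2 * m) + B ^ (2 * m)) * s ≤ (a ^ (2 * m) + B ^ (2 * m)) * σ ^ 2 :=
    mul_le_mul_of_nonneg_left hs (by positivity)
  have hR : 0 ≤ l ^ (2 * m + 1) * r ^ (2 * m + 2) := by positivity
  have hU' : 0 ≤ l ^ (2 * m + 1) * U ^ (2 * m + 2) := by positivity
  have hS : σ ^ (2 * m + 2) ≤ l ^ (2 * m + 1) * σ ^ (2 * m + 2) :=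
    le_mul_of_one_le_left (by positivity) hl1
  have hS2 : l ^ m * σ ^ (2 * m + 2) ≤ l ^ (2 * m + 1) * σ ^ (2 * m + 2) :=
    mul_le_mul_of_nonneg_right hlm (by positivity)
  set M := 2 * (m : ℝ) + 2 with hM
  set X := a ^ (2 * m + 2) / l
    + l ^ (2 * m + 1) * (r ^ (2 * m + 2) + U ^ (2 * m + 2) + σ ^ (2 * m + 2)) with hX
  have hS0 : 0 ≤ l ^ (2 * m + 1) * σ ^ (2 * m + 2) := by positivity
  have e1 : a ^ (2 * m + 1) * I ≤ 6 * X := by rw [hX]; linarith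
  have e2 : (a ^ (2 * m) + B ^ (2 * m)) * s ≤ 2 * X := by rw [hX]; linarith
  have := mul_le_mul_of_nonneg_left e1 (by positivity : 0 ≤ M)
  have := mul_le_mul_of_nonneg_left e2 hC
  linarith

/-- The increment of a vertex moment: the damping wins. -/
lemma vertex_point (m : ℕ) {C a o g σ I s B : ℝ} (hC : 1 ≤ C) (hg1 : 99 / 100 ≤ g)
    (hg2 : g ≤ 101 / 100) (hI : |I + (a + o) / g| ≤ σ) (hs : s ≤ σ ^ 2) (hB0 : 0 ≤ B) (hB : B ≤ σ) :
    (2 * (m : ℝ) + 2) * a ^ (2 * m + 1) * I + C * ((a ^ (2 * m) + B ^ (2 * m)) * s) ≤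
      -(a ^ (2 * m + 2) / 2) + (3 * (2 * (m : ℝ) + 2) * 12 ^ (2 * m + 1) + 2 * C * (4 * C) ^ m)
        * (o ^ (2 * m + 2) + σ ^ (2 * m + 2)) := by
  have hσ : 0 ≤ σ := hB0.trans hB
  have hev : Even (2 * m + 2) := by simp [parity_simps]
  have hA : 0 ≤ a ^ (2 * m + 2) := hev.pow_nonneg a
  have ho : 0 ≤ o ^ (2 * m + 2) := hev.pow_nonneg o
  have hg0 : 0 < g := by linarith
  have hI2 : a ^ (2 * m + 1) * I ≤
      -(a ^ (2 * m + 2) / g) + |a| ^ (2 * m + 1) * (2 * |o| + σ) := by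
    have e : a ^ (2 * m + 1) * I = -(a ^ (2 * m + 2) / g)
        + a ^ (2 * m + 1) * ((I + (a + o) / g) - o / g) := by ring
    rw [e]
    refine add_le_add le_rfl ((le_abs_self _).trans ?_)
    rw [abs_mul, abs_pow]
    refine mul_le_mul_of_nonneg_left ((abs_sub _ _).trans ?_) (by positivity)
    have : |o / g| ≤ 2 * |o| := by
      rw [abs_div, abs_of_pos hg0, div_le_iff₀ hg0]
      nlinarith [abs_nonneg o]
    linarith
  have y1 := young_abs m (by norm_num : (0 : ℝ) < 1 / 12) (a := a) (abs_nonneg o)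
  have y2 := young_abs m (by norm_num : (0 : ℝ) < 1 / 12) (a := a) hσ
  have y3 := young_sq m (show (0 : ℝ) < 1 / (4 * C) by positivity) (a := a) (σ := σ)
  simp only [one_div_one_div, hev.pow_abs] at y1 y2 y3
  have hga : 99 / 100 * a ^ (2 * m + 2) ≤ a ^ (2 * m + 2) / g := by
    rw [le_div_iff₀ hg0]; nlinarith
  have e1 : a ^ (2 * m + 1) * I ≤ -(37 / 50 * a ^ (2 * m + 2))
      + 3 * 12 ^ (2 * m + 1) * (o ^ (2 * m + 2) + σ ^ (2 * m + 2)) := by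
    have : (0 : ℝ) ≤ 12 ^ (2 * m + 1) * o ^ (2 * m + 2) := by positivity
    have : (0 : ℝ) ≤ 12 ^ (2 * m + 1) * σ ^ (2 * m + 2) := by positivity
    linarith
  have hB2 : B ^ (2 * m) * σ ^ 2 ≤ σ ^ (2 * m + 2) := by
    rw [pow_add]; exact mul_le_mul_of_nonneg_right (pow_le_pow_left₀ hB0 hB _) (sq_nonneg σ)
  have ha0 : 0 ≤ a ^ (2 * m) := (even_two_mul m).pow_nonneg a
  have h2 : (a ^ (2 * m) + B ^ (2 * m)) * s ≤ (a ^ (2 * m) + B ^ (2 * m)) * σ ^ 2 :=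
    mul_le_mul_of_nonneg_left hs (by positivity)
  have h4 : (1 : ℝ) ≤ (4 * C) ^ m := one_le_pow₀ (by linarith)
  have hS : σ ^ (2 * m + 2) ≤ (4 * C) ^ m * σ ^ (2 * m + 2) :=
    le_mul_of_one_le_left (by positivity) h4
  have hO : 0 ≤ (4 * C) ^ m * o ^ (2 * m + 2) := by positivity
  have e2 : (a ^ (2 * m) + B ^ (2 * m)) * s ≤ 1 / (4 * C) * a ^ (2 * m + 2)
      + 2 * (4 * C) ^ m * (o ^ (2 * m + 2) + σ ^ (2 * m + 2)) := by linarith
  have f1 := mul_le_mul_of_nonneg_left e1 (by positivity : 0 ≤ 2 * (m : ℝ) + 2)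
  have f2 := mul_le_mul_of_nonneg_left e2 (by linarith : 0 ≤ C)
  have hC4 : C * (1 / (4 * C)) = 1 / 4 := by field_simp
  have hC5 : C * (1 / (4 * C) * a ^ (2 * m + 2)) = 1 / 4 * a ^ (2 * m + 2) := by
    rw [← mul_assoc, hC4]
  rw [mul_add, hC5] at f2
  have hMa : 2 * a ^ (2 * m + 2) ≤ (2 * (m : ℝ) + 2) * a ^ (2 * m + 2) :=
    mul_le_mul_of_nonneg_right (by linarith [(Nat.cast_nonneg m : (0:ℝ) ≤ m)]) hA
  linarith

end Vale.Agent.P046.Phase.One
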