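import Vale.Agent.P046.Phase.One.Tail
import Vale.Agent.P046.Phase.One.Power

/-!
# Moments of the second averaged deviation and of its vertex part

The combined moment `phiM` grows by a bounded factor over the whole first phase.
-/

namespace Vale.Agent.P046.Phase.One

open Finset Filter Chain Flags Phase.Spec

variable {n : ℕ}

/-- The bound per step for `w` and `u`, a slightly lossy square root of the variation rate. -/
noncomputable def sig (n : ℕ) : ℝ := (n:ℝ) ^ (-(317 / 1000) : ℝ)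

/-- The base level of the moment. -/
noncomputable def base0 (m n : ℕ) : ℝ :=
  (n:ℝ) ^ 2 * Real.log n ^ (2 * m + 3) * sig n ^ (2 * m + 2)

/-- The combined moment. -/
noncomputable def phiM (m n : ℕ) (k : ℕ) (F : St n) : ℝ :=
  ∑ e ∈ F, wc k F e ^ (2 * m + 2)
    + Real.log n ^ (2 * m + 2) * (n * pp n k * ∑ b : Fin n, uc k F b ^ (2 * m + 2))
    + base0 m n

lemma even_two_add (m : ℕ) : Even (2 * m + 2) := by simp [parity_simps]

open Classical in
/-- One step of the moment of an observable at the root `R`. -/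
lemma avg_pow_le (m : ℕ) {k : ℕ} {E : St n} (hm : 0 < mm n k) (hne : triangles E ≠ ∅)
    (R : St n) (f : ℕ → St n → ℝ) {B : ℝ} (hJ : JumpLE R f k E B) :
    avg (fun F => if R ⊆ F then f (k + 1) F ^ (2 * m + 2) else 0) E ≤
      f k E ^ (2 * m + 2) + 3 / mm n k *
        ((2 * (m : ℝ) + 2) * f k E ^ (2 * m + 1) * inc R f k E + (2 * (m : ℝ) + 2) ^ 2 * 2 ^ (2 * m)
          * ((f k E ^ (2 * m) + B ^ (2 * m)) * Flags.sq R f k E)) := by
  set a := f k E with ha
  set c1 := (2 * (m : ℝ) + 2) * a ^ (2 * m + 1) with hc1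
  set c2 := (2 * (m : ℝ) + 2) ^ 2 * 2 ^ (2 * m) * (a ^ (2 * m) + B ^ (2 * m)) with hc2
  calc avg (fun F => if R ⊆ F then f (k + 1) F ^ (2 * m + 2) else 0) E
      ≤ avg (fun F => a ^ (2 * m + 2) + (c1 * (if R ⊆ F then f (k + 1) F - a else 0)
          + c2 * (if R ⊆ F then (f (k + 1) F - a) ^ 2 else 0))) E := by
        refine avg_mono fun F hF => ?_
        by_cases hR : R ⊆ F
        · rcases hF with ⟨_, h0⟩ | ⟨t, ht, rfl⟩
          · exact absurd h0 hne
          · simp only [if_pos hR]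
            have h := pow_step m (a := a) (hJ t ht hR)
            rw [show a + (f (k + 1) (E \ sides t) - a) = f (k + 1) (E \ sides t) by ring] at h
            rw [hc1, hc2]
            linarith
        · simp only [if_neg hR, mul_zero, add_zero]
          exact (even_two_add m).pow_nonneg a
    _ = a ^ (2 * m + 2) + (c1 * (3 / mm n k * inc R f k E)
          + c2 * (3 / mm n k * Flags.sq R f k E)) := by
        rw [avg_add, avg_add, avg_const, avg_mul, avg_mul, ← avg_inc hm.ne' R f E,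
          ← avg_sq hm.ne' R f E]
    _ = _ := by rw [hc1, hc2]; ring

/-- Sums over the edges at the ends. -/
lemma sum_ends {k : ℕ} {E : St n} (hsize : Size k E) (x : Fin n → ℝ) :
    ∑ e ∈ E, ∑ b ∈ e, x b = ∑ b : Fin n, (degV E b : ℝ) * x b := by
  calc ∑ e ∈ E, ∑ b ∈ e, x b = ∑ e ∈ E, ∑ b : Fin n, if b ∈ e then x b else 0 := by
        refine sum_congr rfl fun e _ => ?_
        rw [← sum_filter, filter_univ_mem]
    _ = _ := by
        rw [sum_comm]
        refine sum_congr rfl fun b _ => ?_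
        rw [← sum_filter, sum_const, nsmul_eq_mul, card_edges_at hsize]

lemma abs_sum_pow_le {e : Finset (Fin n)} (he : e.card = 2) (x : Fin n → ℝ) (M : ℕ) :
    (∑ b ∈ e, |x b|) ^ M ≤ 2 ^ M * ∑ b ∈ e, |x b| ^ M := by
  obtain ⟨p, q, hpq, rfl⟩ := card_eq_two.1 he
  rw [sum_pair hpq, sum_pair hpq]
  refine (add_pow_le (abs_nonneg _) (abs_nonneg _) _).trans ?_
  exact mul_le_mul_of_nonneg_right (pow_le_pow_right₀ one_le_two (by omega)) (by positivity)

/-- The hypotheses on one state used by the moment. -/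
structure Step (n k : ℕ) (E : St n) (s : ℝ) : Prop where
  good : GoodI (envI n) (etaI n) k E
  drW : ∀ e ∈ E, |inc {e} (fun j F => wc j F e) k E + 2 / (1 + gg k E) * avgE E (wc k E) e| ≤ s
  drU : ∀ b : Fin n,
    |inc ∅ (fun j F => uc j F b) k E + (uc k E b + oc k E b) / (1 + gg k E)| ≤ s
  noW : ∀ e ∈ E, Flags.sq {e} (fun j F => wc j F e) k E ≤ s ^ 2 ∧
    JumpLE {e} (fun j F => wc j F e) k E s
  noU : ∀ b : Fin n, Flags.sq ∅ (fun j F => uc j F b) k E ≤ s ^ 2 ∧
    JumpLE ∅ (fun j F => uc j F b) k E s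

/-- The edge part of one step. -/
lemma step_W (m : ℕ) {k : ℕ} {E : St n} {s l : ℝ} (hr : Reg n k) (hl : 1 ≤ l) (hs : 0 ≤ s)
    (h : Step n k E s) :
    avg (fun F => ∑ e ∈ F, wc (k + 1) F e ^ (2 * m + 2)) E ≤
      ∑ e ∈ E, wc k E e ^ (2 * m + 2) + 3 / mm n k *
        (((6 * (2 * (m : ℝ) + 2) + 2 * ((2 * (m : ℝ) + 2) ^ 2 * 2 ^ (2 * m))) *
          ((∑ e ∈ E, wc k E e ^ (2 * m + 2)) / l + l ^ (2 * m + 1) *
            ((∑ e ∈ E, |avgE E (wc k E) e - (∑ b ∈ e, avgS E (wc k E) b) / 2| ^ (2 * m + 2))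
              + 2 ^ (2 * m + 2) * (2 * (n * pp n k)) * (∑ b : Fin n, uc k E b ^ (2 * m + 2))
              + (n:ℝ) ^ 2 * s ^ (2 * m + 2))))) := by
  classical
  have hne := Flags.triangles_ne_empty hr.small h.good.good
  have hm := hr.small.mm_ge
  have hg := one_add_gg_bounds hr.small h.good.good
  have hsize := h.good.good.size
  set K := 6 * (2 * (m : ℝ) + 2) + 2 * ((2 * (m : ℝ) + 2) ^ 2 * 2 ^ (2 * m)) with hK
  set r : Finset (Fin n) → ℝ :=
    fun e => |avgE E (wc k E) e - (∑ b ∈ e, avgS E (wc k E) b) / 2| with hr'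
  set U : Finset (Fin n) → ℝ := fun e => ∑ b ∈ e, |uc k E b| with hU
  have hpt : ∀ e ∈ E, avg (fun F => if {e} ⊆ F then wc (k + 1) F e ^ (2 * m + 2) else 0) E ≤
      wc k E e ^ (2 * m + 2) + 3 / mm n k * (K * (wc k E e ^ (2 * m + 2) / l
        + l ^ (2 * m + 1) * (r e ^ (2 * m + 2) + U e ^ (2 * m + 2) + s ^ (2 * m + 2)))) := by
    intro e he
    refine (avg_pow_le m (by linarith) hne {e} (fun j F => wc j F e) (h.noW e he).2).trans ?_
    refine add_le_add le_rfl (mul_le_mul_of_nonneg_left ?_ (by positivity))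
    refine edge_point m hl (by positivity) (abs_nonneg _) (sum_nonneg fun b _ => abs_nonneg _) ?_
      (h.noW e he).1 hs le_rfl
    have hav : |avgE E (wc k E) e| ≤ r e + U e / 2 := by
      have e1 : |(∑ b ∈ e, avgS E (wc k E) b) / 2| ≤ U e / 2 := by
        rw [abs_div, abs_two]
        refine div_le_div_of_nonneg_right ((abs_sum_le_sum_abs _ _).trans_eq
          (sum_congr rfl fun b _ => ?_)) zero_le_two
        rw [← uc_eq_avgS k (triV_nonempty hr.small h.good hr.eta b)]
      have := abs_add_le (avgE E (wc k E) e - (∑ b ∈ e, avgS E (wc k E) b) / 2)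
        ((∑ b ∈ e, avgS E (wc k E) b) / 2)
      rw [sub_add_cancel] at this
      simp only [hr']
      linarith
    have hc : |2 / (1 + gg k E) * avgE E (wc k E) e| ≤ 3 * (r e + U e / 2) := by
      rw [abs_mul]
      refine mul_le_mul ?_ hav (abs_nonneg _) (by norm_num)
      rw [abs_div, abs_two, abs_of_pos (by linarith : 0 < 1 + gg k E), div_le_iff₀ (by linarith)]
      linarith
    have hd := h.drW e he
    have := abs_sub (inc {e} (fun j F => wc j F e) k E + 2 / (1 + gg k E) * avgE E (wc k E) e)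
      (2 / (1 + gg k E) * avgE E (wc k E) e)
    rw [add_sub_cancel_right] at this
    have hU0 : 0 ≤ U e := sum_nonneg fun b _ => abs_nonneg _
    simp only [hr', hU] at hc hU0 ⊢
    linarith
  have hsplit : avg (fun F => ∑ e ∈ F, wc (k + 1) F e ^ (2 * m + 2)) E =
      ∑ e ∈ E, avg (fun F => if {e} ⊆ F then wc (k + 1) F e ^ (2 * m + 2) else 0) E := by
    rw [← avg_sum]
    refine avg_congr fun F hF => ?_
    simp only [singleton_subset_iff]
    rw [← sum_filter, filter_mem_eq_inter, inter_eq_right.2 hF.subset]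
  rw [hsplit]
  refine (sum_le_sum hpt).trans ?_
  rw [sum_add_distrib, ← mul_sum, ← mul_sum, sum_add_distrib, ← sum_div, ← mul_sum,
    sum_add_distrib, sum_add_distrib]
  have hUsum : ∑ e ∈ E, U e ^ (2 * m + 2) ≤
      2 ^ (2 * m + 2) * (2 * (n * pp n k)) * ∑ b : Fin n, uc k E b ^ (2 * m + 2) := by
    refine (sum_le_sum fun e he => abs_sum_pow_le (mem_powersetCard.1 (hsize.1 he)).2 _ _).trans ?_
    rw [← mul_sum, mul_assoc, sum_ends hsize (fun b => |uc k E b| ^ (2 * m + 2))]
    refine mul_le_mul_of_nonneg_left ?_ (by positivity)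
    rw [mul_sum]
    refine sum_le_sum fun b _ => ?_
    rw [(even_two_add m).pow_abs]
    refine mul_le_mul_of_nonneg_right ?_ ((even_two_add m).pow_nonneg _)
    have h1 := (abs_le.1 (h.good.deg b)).2
    have hnp : 0 ≤ (n:ℝ) * pp n k := le_trans zero_le_one hr.np_ge
    have h2 : etaI n k * (n * pp n k) ≤ 1 / 100 * (n * pp n k) :=
      mul_le_mul_of_nonneg_right hr.eta hnp
    linarith
  have hcard : ∑ _e ∈ E, s ^ (2 * m + 2) ≤ (n:ℝ) ^ 2 * s ^ (2 * m + 2) := by
    rw [sum_const, nsmul_eq_mul, card_eq_mm hsize]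
    refine mul_le_mul_of_nonneg_right ?_ (by positivity)
    refine le_trans ?_ (choose_two_le n)
    rw [mm]; linarith [(Nat.cast_nonneg k : (0:ℝ) ≤ k)]
  gcongr

/-- The vertex part of one step. -/
lemma step_U (m : ℕ) {k : ℕ} {E : St n} {s : ℝ} (hr : Reg n k) (hs : 0 ≤ s) (h : Step n k E s) :
    avg (fun F => n * pp n (k + 1) * ∑ b : Fin n, uc (k + 1) F b ^ (2 * m + 2)) E ≤
      n * pp n k * ∑ b : Fin n, uc k E b ^ (2 * m + 2) + 3 / mm n k *
        (-(n * pp n k * (∑ b : Fin n, uc k E b ^ (2 * m + 2)) / 2)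
          + (3 * (2 * (m : ℝ) + 2) * 12 ^ (2 * m + 1) + 2 * ((2 * (m : ℝ) + 2) ^ 2 * 2 ^ (2 * m))
              * (4 * ((2 * (m : ℝ) + 2) ^ 2 * 2 ^ (2 * m))) ^ m)
            * ((n * pp n k * ∑ b : Fin n, |avgO E (wc k E) b - avgG E (wc k E)| ^ (2 * m + 2))
              + (n:ℝ) ^ 2 * s ^ (2 * m + 2))) := by
  classical
  have hne := Flags.triangles_ne_empty hr.small h.good.good
  have hm := hr.small.mm_ge
  have hg := one_add_gg_bounds hr.small h.good.good
  set K := 3 * (2 * (m : ℝ) + 2) * 12 ^ (2 * m + 1) + 2 * ((2 * (m : ℝ) + 2) ^ 2 * 2 ^ (2 * m))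
    * (4 * ((2 * (m : ℝ) + 2) ^ 2 * 2 ^ (2 * m))) ^ m with hK
  have hC : (1 : ℝ) ≤ (2 * (m : ℝ) + 2) ^ 2 * 2 ^ (2 * m) :=
    one_le_mul_of_one_le_of_one_le
      (one_le_pow₀ (by linarith [(Nat.cast_nonneg m : (0:ℝ) ≤ m)])) (one_le_pow₀ one_le_two)
  have hG : avgG E (wc k E) = 0 := by
    have h1 := avgG_avgE E (zz k E)
    have hw : avgG E (wc k E) = avgG E (ww k E) - avgG E (zz k E) := by
      simp only [avgG]
      rw [← mean_sub_const (nonempty_iff_ne_empty.2 hne)]
      refine mean_congr fun t ht => ?_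
      simp only [wc, avgG, sum_sub_distrib, sum_const, card_sides ht, nsmul_eq_mul]
      push_cast
      ring
    rw [hw]
    exact sub_eq_zero.2 h1
  have hpt : ∀ b : Fin n, avg (fun F => uc (k + 1) F b ^ (2 * m + 2)) E ≤
      uc k E b ^ (2 * m + 2) + 3 / mm n k * (-(uc k E b ^ (2 * m + 2) / 2)
        + K * (|avgO E (wc k E) b - avgG E (wc k E)| ^ (2 * m + 2) + s ^ (2 * m + 2))) := by
    intro b
    have h1 := avg_pow_le m (by linarith : 0 < mm n k) hne ∅ (fun j F => uc j F b) (h.noU b).2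
    simp only [empty_subset, if_true] at h1
    refine h1.trans (add_le_add le_rfl (mul_le_mul_of_nonneg_left ?_ (by positivity)))
    have ho : |avgO E (wc k E) b - avgG E (wc k E)| ^ (2 * m + 2) = oc k E b ^ (2 * m + 2) := by
      rw [hG, sub_zero, (even_two_add m).pow_abs,
        oc_eq_avgO k (triV_nonempty hr.small h.good hr.eta b)]
    rw [ho]
    exact vertex_point m hC hg.1 hg.2 (h.drU b) (h.noU b).1 hs le_rfl
  have hppmono : (n:ℝ) * pp n (k + 1) ≤ n * pp n k := by
    refine mul_le_mul_of_nonneg_left ?_ n.cast_nonneg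
    simp only [pp, mm]
    exact div_le_div_of_nonneg_right (by push_cast; linarith) (Nat.cast_nonneg _)
  have hnp : 0 ≤ (n:ℝ) * pp n k := le_trans zero_le_one hr.np_ge
  have hn2 : (n:ℝ) * pp n k * n ≤ (n:ℝ) ^ 2 := by
    have h2 := mul_le_mul_of_nonneg_left hr.pp_le (mul_self_nonneg (n:ℝ))
    linarith
  rw [avg_mul, avg_sum]
  refine (mul_le_mul_of_nonneg_right hppmono (sum_nonneg fun b _ => avg_nonneg fun F _ =>
    (even_two_add m).pow_nonneg _)).trans ?_
  refine (mul_le_mul_of_nonneg_left (sum_le_sum fun b _ => hpt b) hnp).trans ?_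
  rw [sum_add_distrib, ← mul_sum, sum_add_distrib, sum_neg_distrib, ← sum_div, ← mul_sum,
    sum_add_distrib, sum_const, card_univ, Fintype.card_fin, nsmul_eq_mul]
  have hfin : 0 ≤ K * (3 / mm n k) * s ^ (2 * m + 2) := by
    have : 0 ≤ K := by positivity
    positivity
  have := mul_le_mul_of_nonneg_left hn2 hfin
  linarith

end Vale.Agent.P046.Phase.One
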