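import Vale.Agent.P046.Phase.One.Regime

/-!
# The sizes of the rates in the first phase
-/

namespace Vale.Agent.P046.Phase.One

open Finset Filter Flags

/-- Upper bounds on all rates, as powers of `n`. -/
structure Rates (n k : ℕ) : Prop where
  invMu : 1 / mu n k ≤ (n:ℝ) ^ (-(7 / 25) : ℝ)
  invNp : 1 / (n * pp n k) ≤ (n:ℝ) ^ (-(16 / 25) : ℝ)
  track : (envI n).tau k / ((n:ℝ) ^ 2 * pp n k ^ 5) ≤ (n:ℝ) ^ (-(99 / 500) : ℝ)
  err : err (envI n) n k ≤ (n:ℝ) ^ (-(19 / 50) : ℝ)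
  qY : qY (envI n) n k ≤ (n:ℝ) ^ (-(27 / 100) : ℝ)
  qZ : qZ (envI n) n k ≤ (n:ℝ) ^ (-(53 / 100) : ℝ)
  jZ : jZ (envI n) n k ≤ (n:ℝ) ^ (-(2 / 5) : ℝ)
  qV : qV (envI n) n k ≤ (n:ℝ) ^ (-(79 / 100) : ℝ)
  jV : jV (envI n) n k ≤ (n:ℝ) ^ (-(53 / 100) : ℝ)
  qU : qU (envI n) n k ≤ (n:ℝ) ^ (-(159 / 250) : ℝ)
  jU : jU (envI n) n k ≤ (n:ℝ) ^ (-(13 / 25) : ℝ)
  qW : qW (envI n) n k ≤ (n:ℝ) ^ (-(159 / 250) : ℝ)
  jW : jW (envI n) n k ≤ (n:ℝ) ^ (-(13 / 25) : ℝ)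

/-- The structural rates and the inverse powers. -/
structure Base (n k : ℕ) : Prop where
  i1 : 1 / mu n k ≤ (n:ℝ) ^ (-(7 / 25) : ℝ)
  i2 : 1 / (n * pp n k) ≤ (n:ℝ) ^ (-(16 / 25) : ℝ)
  i5 : 1 / mm n k ≤ (n:ℝ) ^ (-(8 / 5) : ℝ)
  T : (envI n).tau k / mu n k ^ 2 ≤ 2 * (n:ℝ) ^ (-(559 / 1000) : ℝ)
  T3 : (envI n).tau k / mu n k ^ 3 ≤ 2 * (n:ℝ) ^ (-(839 / 1000) : ℝ)
  T4 : (envI n).tau k / mu n k ^ 4 ≤ 2 * (n:ℝ) ^ (-(839 / 1000) : ℝ)
  K : (envI n).kap k / mu n k ^ 3 ≤ 3 * (n:ℝ) ^ (-(639 / 1000) : ℝ)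
  W : (envI n).tau k / ((n:ℝ) ^ 2 * pp n k ^ 5) ≤ 2 * (n:ℝ) ^ (-(199 / 1000) : ℝ)

lemma base {n k : ℕ} (hn : 2 ≤ n) (hr : Reg n k) : Base n k := by
  obtain ⟨hsmall, -, hpp, -, hmu, hmm, -, htau, hkap⟩ := hr
  have hn0 : (0 : ℝ) < n := by exact_mod_cast (by omega : 0 < n)
  have hn1 : (1 : ℝ) ≤ n := by exact_mod_cast (by omega : 1 ≤ n)
  set p := pp n k with hp
  set N := (n : ℝ) with hN
  set x := N ^ (-(9 / 25) : ℝ) with hx
  have hx0 : 0 < x := Real.rpow_pos_of_pos hn0 _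
  have hp0 : 0 < p := hx0.trans hpp
  have hadd : ∀ {a b c : ℝ}, a + b = c → N ^ a * N ^ b = N ^ c := fun h => by
    rw [← Real.rpow_add hn0, h]
  have hmono : ∀ {a b : ℝ}, a ≤ b → N ^ a ≤ N ^ b := fun h =>
    Real.rpow_le_rpow_of_exponent_le hn1 h
  have hpos : ∀ a : ℝ, 0 ≤ N ^ a := fun a => Real.rpow_nonneg hn0.le a
  -- inverse powers
  have hip : ∀ (a m : ℕ) (e : ℝ), e = -(a : ℝ) + 9 / 25 * m →
      1 / (N ^ a * p ^ m) ≤ N ^ e := by
    intro a m e he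
    have h1 : 1 / p ^ m ≤ N ^ (9 / 25 * (m : ℝ)) := by
      rw [Real.rpow_mul hn0.le, Real.rpow_natCast, ← one_div_pow]
      refine pow_le_pow_left₀ (by positivity) ?_ m
      rw [one_div_le hp0 (Real.rpow_pos_of_pos hn0 _), one_div, ← Real.rpow_neg hn0.le]
      exact hpp.le
    calc 1 / (N ^ a * p ^ m) = N ^ (-(a : ℝ)) * (1 / p ^ m) := by
          rw [Real.rpow_neg hn0.le, Real.rpow_natCast]; field_simp
      _ ≤ N ^ (-(a : ℝ)) * N ^ (9 / 25 * (m : ℝ)) := mul_le_mul_of_nonneg_left h1 (hpos _)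
      _ = N ^ e := hadd he.symm
  have i1 : 1 / mu n k ≤ N ^ (-(7 / 25) : ℝ) := by
    have := hip 1 2 (-(7 / 25)) (by norm_num)
    rwa [pow_one] at this
  have i2 : 1 / (N * p) ≤ N ^ (-(16 / 25) : ℝ) := by
    have := hip 1 1 (-(16 / 25)) (by norm_num)
    rwa [pow_one, pow_one] at this
  have i3 := hip 2 3 (-(23 / 25)) (by norm_num)
  have i4 := hip 2 5 (-(1 / 5)) (by norm_num)
  have i5 : 1 / mm n k ≤ N ^ (-(8 / 5) : ℝ) := by
    rw [Real.rpow_neg hn0.le, ← one_div]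
    exact one_div_le_one_div_of_le (Real.rpow_pos_of_pos hn0 _) hmm
  have hmu0 := hsmall.mu_big
  have hmm0 : 0 < mm n k := lt_of_lt_of_le (Real.rpow_pos_of_pos hn0 _) hmm
  have hi1 : 0 ≤ 1 / mu n k := by rw [mu] at *; positivity
  have hi1le : 1 / mu n k ≤ 1 := i1.trans ((hmono (by norm_num)).trans_eq (Real.rpow_zero _))
  have i11 : (1 / mu n k) ^ 2 ≤ N ^ (-(14 / 25) : ℝ) := by
    rw [pow_two]; exact (mul_le_mul i1 i1 hi1 (hpos _)).trans_eq (hadd (by norm_num))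
  -- the structural rates
  have hT : (envI n).tau k / mu n k ^ 2 ≤ 2 * N ^ (-(559 / 1000) : ℝ) := by
    have e : (envI n).tau k / mu n k ^ 2
        = N ^ (1 / 1000 : ℝ) * ((1 / mu n k) ^ 2 + 1 / (N * p)) := by
      rw [htau, mu, ← hp, ← hN]; field_simp
    rw [e]
    refine (mul_le_mul_of_nonneg_left (add_le_add i11
      (i2.trans (hmono (by norm_num : -(16 / 25 : ℝ) ≤ -(14 / 25))))) (hpos _)).trans_eq ?_
    rw [mul_add, hadd (by norm_num : (1 / 1000 : ℝ) + -(14 / 25) = -(559 / 1000))]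
    ring
  have htau0 : 0 ≤ (envI n).tau k := le_trans zero_le_one hsmall.tau1
  have hmu1 : (0 : ℝ) < mu n k := by linarith
  have hT0 : 0 ≤ (envI n).tau k / mu n k ^ 2 := by positivity
  have hT3 : (envI n).tau k / mu n k ^ 3 ≤ 2 * N ^ (-(839 / 1000) : ℝ) := by
    rw [show (envI n).tau k / mu n k ^ 3 = (envI n).tau k / mu n k ^ 2 * (1 / mu n k) by
      field_simp]
    refine (mul_le_mul hT i1 hi1 (mul_nonneg zero_le_two (hpos _))).trans_eq ?_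
    rw [mul_assoc, ← Real.rpow_add hn0]; norm_num
  have hT4 : (envI n).tau k / mu n k ^ 4 ≤ 2 * N ^ (-(839 / 1000) : ℝ) := by
    rw [show (envI n).tau k / mu n k ^ 4 = (envI n).tau k / mu n k ^ 3 * (1 / mu n k) by
      field_simp]
    exact (mul_le_of_le_one_right (by positivity) hi1le).trans hT3
  have hK : (envI n).kap k / mu n k ^ 3 ≤ 3 * N ^ (-(639 / 1000) : ℝ) := by
    have e : (envI n).kap k / mu n k ^ 3 = N ^ (1 / 1000 : ℝ)
        * ((1 / mu n k) ^ 2 * (1 / mu n k) + 1 / (N ^ 2 * p ^ 3) + 1 / (N * p)) := by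
      rw [hkap, mu, ← hp, ← hN]; field_simp
    rw [e]
    refine (mul_le_mul_of_nonneg_left (add_le_add (add_le_add
      (((mul_le_mul i11 i1 hi1 (hpos _)).trans_eq (hadd rfl)).trans
        (hmono (by norm_num : -(14 / 25 : ℝ) + -(7 / 25) ≤ -(16 / 25))))
      (i3.trans (hmono (by norm_num : -(23 / 25 : ℝ) ≤ -(16 / 25))))) i2) (hpos _)).trans_eq ?_
    rw [mul_add, mul_add, hadd (by norm_num : (1 / 1000 : ℝ) + -(16 / 25) = -(639 / 1000))]
    ring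
  have hW : (envI n).tau k / (N ^ 2 * p ^ 5) ≤ 2 * N ^ (-(199 / 1000) : ℝ) := by
    have e : (envI n).tau k / (N ^ 2 * p ^ 5)
        = N ^ (1 / 1000 : ℝ) * (1 / (N ^ 2 * p ^ 5) + 1 / mu n k) := by
      rw [htau, mu, ← hp, ← hN]; field_simp
    rw [e]
    refine (mul_le_mul_of_nonneg_left (add_le_add i4
      (i1.trans (hmono (by norm_num : -(7 / 25 : ℝ) ≤ -(1 / 5))))) (hpos _)).trans_eq ?_
    rw [mul_add, hadd (by norm_num : (1 / 1000 : ℝ) + -(1 / 5) = -(199 / 1000))]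
    ring
  exact ⟨i1, i2, i5, hT, hT3, hT4, hK, hW⟩

theorem ev_rates : ∀ᶠ n : ℕ in atTop, ∀ k, k < iOne n → Rates n k := by
  filter_upwards [ev_regime, eventually_ge_atTop 2,
    ev_le 2 0 (a := -(199 / 1000)) (b := -(99 / 500)) (by norm_num),
    ev_le 10 0 (a := -(39 / 100)) (b := -(19 / 50)) (by norm_num),
    ev_le 3 0 (a := -(7 / 25)) (b := -(27 / 100)) (by norm_num),
    ev_le 3 0 (a := -(27 / 50)) (b := -(53 / 100)) (by norm_num),
    ev_le 3 0 (a := -(41 / 100)) (b := -(2 / 5)) (by norm_num),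
    ev_le 6 0 (a := -(4 / 5)) (b := -(79 / 100)) (by norm_num),
    ev_le 6 0 (a := -(27 / 50)) (b := -(53 / 100)) (by norm_num),
    ev_le 10 0 (a := -(639 / 1000)) (b := -(159 / 250)) (by norm_num),
    ev_le 7 0 (a := -(27 / 50)) (b := -(13 / 25)) (by norm_num)]
    with n hreg hn hTW herr hqY hqZ hjZ hqV hjV hqU hjU k hk
  simp only [pow_zero, mul_one] at hTW herr hqY hqZ hjZ hqV hjV hqU hjU
  obtain ⟨i1, i2, i5, hT, hT3, hT4, hK, hW⟩ := base hn (hreg k hk)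
  have hn0 : (0 : ℝ) < n := by exact_mod_cast (by omega : 0 < n)
  have hn1 : (1 : ℝ) ≤ n := by exact_mod_cast (by omega : 1 ≤ n)
  set p := pp n k with hp
  set N := (n : ℝ) with hN
  have hadd : ∀ {a b c : ℝ}, a + b = c → N ^ a * N ^ b = N ^ c := fun h => by
    rw [← Real.rpow_add hn0, h]
  have hmono : ∀ {a b : ℝ}, a ≤ b → N ^ a ≤ N ^ b := fun h =>
    Real.rpow_le_rpow_of_exponent_le hn1 h
  have hpos : ∀ a : ℝ, 0 ≤ N ^ a := fun a => Real.rpow_nonneg hn0.le a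
  -- the envelope
  have ey : (envI n).y k = N ^ (-(13 / 100) : ℝ) := rfl
  have ez : (envI n).z k = N ^ (-(13 / 50) : ℝ) := rfl
  have ew : (envI n).w k = N ^ (-(3 / 10) : ℝ) := rfl
  have ey2 : (envI n).y k ^ 2 = N ^ (-(13 / 50) : ℝ) := by
    rw [ey, pow_two, ← Real.rpow_add hn0]; norm_num
  have ez2 : (envI n).z k ^ 2 = N ^ (-(13 / 25) : ℝ) := by
    rw [ez, pow_two, ← Real.rpow_add hn0]; norm_num
  have ey4 : (envI n).y k ^ 4 = N ^ (-(13 / 25) : ℝ) := by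
    rw [show (envI n).y k ^ 4 = ((envI n).y k ^ 2) ^ 2 by ring, ey2, pow_two, ← Real.rpow_add hn0]
    norm_num
  have mul_inv_mu : ∀ {a b : ℝ}, a + -(7 / 25) = b → N ^ a / mu n k ≤ N ^ b := fun h => by
    rw [div_eq_mul_one_div]
    exact (mul_le_mul_of_nonneg_left i1 (hpos _)).trans_eq (hadd h)
  have mul_T : ∀ {a b : ℝ}, a + -(559 / 1000) = b →
      N ^ a * (envI n).tau k / mu n k ^ 2 ≤ 2 * N ^ b := fun {a b} h => by
    rw [mul_div_assoc]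
    refine (mul_le_mul_of_nonneg_left hT (hpos _)).trans_eq ?_
    rw [← hadd h]; ring
  have hwn : (envI n).w k / (N * p) ≤ N ^ (-(47 / 50) : ℝ) := by
    rw [ew, div_eq_mul_one_div]
    exact (mul_le_mul_of_nonneg_left i2 (hpos _)).trans_eq (hadd (by norm_num))
  have hw2n : (envI n).w k ^ 2 / (N * p) ≤ N ^ (-(31 / 25) : ℝ) := by
    rw [ew, pow_two, hadd rfl, div_eq_mul_one_div]
    exact (mul_le_mul_of_nonneg_left i2 (hpos _)).trans_eq (hadd (by norm_num))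
  have hqW : Flags.qW (envI n) n k ≤ 9 * N ^ (-(639 / 1000) : ℝ) := by
    rw [Flags.qW, add_div, ey2, ez2]
    have a1 := mul_T (show -(13 / 50 : ℝ) + -(559 / 1000) = -(819 / 1000) by norm_num)
    have a2 := mul_inv_mu (show -(13 / 25 : ℝ) + -(7 / 25) = -(4 / 5) by norm_num)
    linarith [hmono (by norm_num : -(819 / 1000 : ℝ) ≤ -(639 / 1000)),
      hmono (by norm_num : -(839 / 1000 : ℝ) ≤ -(639 / 1000)),
      hmono (by norm_num : -(4 / 5 : ℝ) ≤ -(639 / 1000)),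
      hmono (by norm_num : -(8 / 5 : ℝ) ≤ -(639 / 1000))]
  have hjW : Flags.jW (envI n) n k ≤ 6 * N ^ (-(27 / 50) : ℝ) := by
    rw [Flags.jW, ez]
    have a2 := mul_inv_mu (show -(13 / 50 : ℝ) + -(7 / 25) = -(27 / 50) by norm_num)
    linarith [hmono (by norm_num : -(559 / 1000 : ℝ) ≤ -(27 / 50)),
      hmono (by norm_num : -(639 / 1000 : ℝ) ≤ -(27 / 50))]
  refine ⟨i1, i2, hW.trans hTW, ?_, ?_, ?_, ?_, ?_, ?_, ?_, ?_, ?_, ?_⟩
  · refine le_trans ?_ herr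
    rw [Flags.err, mul_add, mul_add, mul_add, ey2, ez2, ey, ez, ew, ← div_eq_mul_one_div]
    simp only [← Real.rpow_add hn0]
    have a2 := mul_inv_mu (show -(13 / 100 : ℝ) + -(7 / 25) = -(41 / 100) by norm_num)
    linarith [hmono (by norm_num : -(13 / 100 : ℝ) + -(13 / 50) ≤ -(39 / 100)),
      hmono (by norm_num : -(13 / 100 : ℝ) + -(3 / 10) ≤ -(39 / 100)),
      hmono (by norm_num : -(41 / 100 : ℝ) ≤ -(39 / 100)),
      hmono (by norm_num : -(13 / 25 : ℝ) ≤ -(39 / 100)),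
      hmono (by norm_num : -(559 / 1000 : ℝ) ≤ -(39 / 100)),
      hmono (by norm_num : -(639 / 1000 : ℝ) ≤ -(39 / 100))]
  · refine le_trans ?_ hqY
    rw [Flags.qY]
    linarith [hmono (by norm_num : -(559 / 1000 : ℝ) ≤ -(7 / 25))]
  · refine le_trans ?_ hqZ
    rw [Flags.qZ, ey2]
    have a2 := mul_inv_mu (show -(13 / 50 : ℝ) + -(7 / 25) = -(27 / 50) by norm_num)
    linarith [hmono (by norm_num : -(559 / 1000 : ℝ) ≤ -(27 / 50))]
  · refine le_trans ?_ hjZ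
    rw [Flags.jZ, ey]
    have a2 := mul_inv_mu (show -(13 / 100 : ℝ) + -(7 / 25) = -(41 / 100) by norm_num)
    linarith [hmono (by norm_num : -(559 / 1000 : ℝ) ≤ -(41 / 100))]
  · refine le_trans ?_ hqV
    rw [Flags.qV, ey4, ey2]
    have a1 := mul_T (show -(13 / 50 : ℝ) + -(559 / 1000) = -(819 / 1000) by norm_num)
    have a2 := mul_inv_mu (show -(13 / 25 : ℝ) + -(7 / 25) = -(4 / 5) by norm_num)
    linarith [hmono (by norm_num : -(819 / 1000 : ℝ) ≤ -(4 / 5)),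
      hmono (by norm_num : -(839 / 1000 : ℝ) ≤ -(4 / 5)),
      hmono (by norm_num : -(8 / 5 : ℝ) ≤ -(4 / 5))]
  · refine le_trans ?_ hjV
    rw [Flags.jV, ey2, ey]
    have a1 := mul_T (show -(13 / 100 : ℝ) + -(559 / 1000) = -(689 / 1000) by norm_num)
    have a2 := mul_inv_mu (show -(13 / 50 : ℝ) + -(7 / 25) = -(27 / 50) by norm_num)
    linarith [hmono (by norm_num : -(689 / 1000 : ℝ) ≤ -(27 / 50)),
      hmono (by norm_num : -(839 / 1000 : ℝ) ≤ -(27 / 50)),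
      hmono (by norm_num : -(8 / 5 : ℝ) ≤ -(27 / 50))]
  · refine le_trans ?_ hqU
    rw [Flags.qU]
    linarith [hmono (by norm_num : -(31 / 25 : ℝ) ≤ -(639 / 1000))]
  · refine le_trans ?_ hjU
    rw [Flags.jU]
    linarith [hmono (by norm_num : -(47 / 50 : ℝ) ≤ -(27 / 50))]
  · refine le_trans ?_ hqU
    linarith [hpos (-(639 / 1000))]
  · refine le_trans ?_ hjU
    linarith [hpos (-(27 / 50))]

end Vale.Agent.P046.Phase.One
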