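import Vale.Agent.P046.Phase.One.Moment
import Vale.Agent.P046.Phase.One.Rates
import Vale.Agent.P046.Phase.One.Init

/-!
# The first phase keeps `w` and `u` small
-/

namespace Vale.Agent.P046.Phase.One

open Finset Filter Chain Flags Phase.Spec

variable {n : ℕ}

/-- The contraction factor. -/
noncomputable def gain (n : ℕ) : ℝ := (n:ℝ) ^ (-(1 / 62) : ℝ)

lemma phiM_nonneg (m : ℕ) (hn : 1 ≤ n) {k : ℕ} (hp : 0 ≤ pp n k) (F : St n) :
    0 ≤ phiM m n k F := by
  have hl : 0 ≤ Real.log n := Real.log_nonneg (by exact_mod_cast hn)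
  have h1 : 0 ≤ ∑ e ∈ F, wc k F e ^ (2 * m + 2) :=
    sum_nonneg fun e _ => (even_two_add m).pow_nonneg _
  have h2 : 0 ≤ ∑ b : Fin n, uc k F b ^ (2 * m + 2) :=
    sum_nonneg fun b _ => (even_two_add m).pow_nonneg _
  rw [phiM, base0, sig]
  positivity

/-- One step of the combined moment, under the numerical conditions. -/
lemma step_phi (m : ℕ) {k : ℕ} {E : St n} {s C G K : ℝ} (hr : Reg n k) (hs0 : 0 ≤ s)
    (hs : s ≤ sig n) (h : Step n k E s) (hl : 1 ≤ Real.log n)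
    (hcon : (∑ e ∈ E, |avgE E (wc k E) e - (∑ b ∈ e, avgS E (wc k E) b) / 2| ^ (2 * m + 2)
          ≤ G * ∑ e ∈ E, wc k E e ^ (2 * m + 2)) ∧
        (n * pp n k * ∑ b : Fin n, |avgO E (wc k E) b - avgG E (wc k E)| ^ (2 * m + 2)
          ≤ G * ∑ e ∈ E, wc k E e ^ (2 * m + 2)))
    (hG0 : 0 ≤ G) (hG : Real.log n ^ (2 * m + 3) * G ≤ 1) (hC : 0 ≤ C) (hK : 0 ≤ K)
    (hCdef : C = 6 * (2 * (m : ℝ) + 2) + 2 * ((2 * (m : ℝ) + 2) ^ 2 * 2 ^ (2 * m)))
    (hKdef : K = 3 * (2 * (m : ℝ) + 2) * 12 ^ (2 * m + 1) + 2 * ((2 * (m : ℝ) + 2) ^ 2 * 2 ^ (2 * m))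
      * (4 * ((2 * (m : ℝ) + 2) ^ 2 * 2 ^ (2 * m))) ^ m)
    (hbig : 4 * C * 2 ^ (2 * m + 2) ≤ Real.log n) :
    avg (phiM m n (k + 1)) E ≤
      (1 + 3 / mm n k * ((2 * C + 2 * K) / Real.log n)) * phiM m n k E := by
  set l := Real.log n with hl'
  have hl0 : 0 < l := by linarith
  have hh : 0 ≤ 3 / mm n k := div_nonneg (by norm_num) (by linarith [hr.small.mm_ge])
  have e1 : avg (phiM m n (k + 1)) E
      = avg (fun F => ∑ e ∈ F, wc (k + 1) F e ^ (2 * m + 2)) E + l ^ (2 * m + 2)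
        * avg (fun F => n * pp n (k + 1) * ∑ b : Fin n, uc (k + 1) F b ^ (2 * m + 2)) E
        + base0 m n := by
    unfold phiM
    rw [avg_add, avg_add, avg_const, avg_mul]
  rw [e1]
  have hW := step_W m hr hl hs0 h
  have hU := mul_le_mul_of_nonneg_left (step_U m hr hs0 h) (pow_nonneg hl0.le (2 * m + 2))
  rw [← hCdef] at hW
  rw [← hKdef] at hU
  set W := ∑ e ∈ E, wc k E e ^ (2 * m + 2) with hWdef
  set U := ∑ b : Fin n, uc k E b ^ (2 * m + 2) with hUdef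
  set R1 := ∑ e ∈ E, |avgE E (wc k E) e - (∑ b ∈ e, avgS E (wc k E) b) / 2| ^ (2 * m + 2)
  set R2 := (n:ℝ) * pp n k * ∑ b : Fin n, |avgO E (wc k E) b - avgG E (wc k E)| ^ (2 * m + 2)
  have hW0 : 0 ≤ W := sum_nonneg fun e _ => (even_two_add m).pow_nonneg _
  have hU0 : 0 ≤ U := sum_nonneg fun b _ => (even_two_add m).pow_nonneg _
  have hnp : 0 ≤ (n:ℝ) * pp n k := le_trans zero_le_one hr.np_ge
  set P := (n:ℝ) * pp n k * U with hP
  have hP0 : 0 ≤ P := mul_nonneg hnp hU0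
  -- everything as a multiple of `1 / l`
  have hGl : ∀ i ≤ 2 * m + 2, l ^ i * G ≤ 1 / l := by
    intro i hi
    rw [le_div_iff₀ hl0]
    refine le_trans ?_ hG
    rw [show l ^ i * G * l = l ^ (i + 1) * G by ring]
    exact mul_le_mul_of_nonneg_right (pow_le_pow_right₀ hl (by omega)) hG0
  have a1 : l ^ (2 * m + 1) * R1 ≤ W / l := by
    refine (mul_le_mul_of_nonneg_left hcon.1 (by positivity)).trans ?_
    rw [← mul_assoc, div_eq_inv_mul, ← one_div]
    exact mul_le_mul_of_nonneg_right (hGl _ (by omega)) hW0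
  have a2 : l ^ (2 * m + 2) * R2 ≤ W / l := by
    refine (mul_le_mul_of_nonneg_left hcon.2 (by positivity)).trans ?_
    rw [← mul_assoc, div_eq_inv_mul, ← one_div]
    exact mul_le_mul_of_nonneg_right (hGl _ le_rfl) hW0
  have hpow : s ^ (2 * m + 2) ≤ sig n ^ (2 * m + 2) := pow_le_pow_left₀ hs0 hs _
  have hbase : ∀ i ≤ 2 * m + 2, l ^ i * ((n:ℝ) ^ 2 * s ^ (2 * m + 2)) ≤ base0 m n / l := by
    intro i hi
    rw [le_div_iff₀ hl0, base0, ← hl']
    calc l ^ i * ((n:ℝ) ^ 2 * s ^ (2 * m + 2)) * l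
        = (n:ℝ) ^ 2 * l ^ (i + 1) * s ^ (2 * m + 2) := by ring
      _ ≤ _ := mul_le_mul (mul_le_mul_of_nonneg_left (pow_le_pow_right₀ hl (by omega))
          (by positivity)) hpow (by positivity) (by positivity)
  have a3 := hbase (2 * m + 1) (by omega)
  have a4 := hbase (2 * m + 2) le_rfl
  have a5 : C * (l ^ (2 * m + 1) * (2 ^ (2 * m + 2) * (2 * (n * pp n k)) * U)) ≤
      l ^ (2 * m + 2) * (P / 2) := by
    have h1 := mul_le_mul_of_nonneg_left hbig
      (by positivity : 0 ≤ l ^ (2 * m + 1) * (P / 2))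
    calc C * (l ^ (2 * m + 1) * (2 ^ (2 * m + 2) * (2 * (n * pp n k)) * U))
        = l ^ (2 * m + 1) * (P / 2) * (4 * C * 2 ^ (2 * m + 2)) := by rw [hP]; ring
      _ ≤ l ^ (2 * m + 1) * (P / 2) * l := h1
      _ = _ := by ring
  have hb0 : 0 ≤ base0 m n := by rw [base0, sig, ← hl']; positivity
  have hWl : 0 ≤ W / l := by positivity
  have hbl : 0 ≤ base0 m n / l := by positivity
  have hPl : 0 ≤ l ^ (2 * m + 2) * P / l := by positivity
  have key : C * (W / l + l ^ (2 * m + 1) *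
        (R1 + 2 ^ (2 * m + 2) * (2 * (n * pp n k)) * U + (n:ℝ) ^ 2 * s ^ (2 * m + 2)))
      + l ^ (2 * m + 2) * (-(P / 2) + K * (R2 + (n:ℝ) ^ 2 * s ^ (2 * m + 2)))
      ≤ (2 * C + 2 * K) / l * (W + l ^ (2 * m + 2) * P + base0 m n) := by
    have c1 := mul_le_mul_of_nonneg_left a1 hC
    have c2 := mul_le_mul_of_nonneg_left a2 hK
    have c3 := mul_le_mul_of_nonneg_left a3 hC
    have c4 := mul_le_mul_of_nonneg_left a4 hK
    have d1 := mul_nonneg hC hbl
    have d2 := mul_nonneg hK hbl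
    have d3 := mul_nonneg hC hPl
    have d4 := mul_nonneg hK hPl
    have d5 := mul_nonneg hK hWl
    have e : (2 * C + 2 * K) / l * (W + l ^ (2 * m + 2) * P + base0 m n)
        = 2 * C * (W / l) + 2 * K * (W / l) + 2 * C * (l ^ (2 * m + 2) * P / l)
          + 2 * K * (l ^ (2 * m + 2) * P / l)
          + 2 * C * (base0 m n / l) + 2 * K * (base0 m n / l) := by ring
    rw [e]
    linarith
  have key2 := mul_le_mul_of_nonneg_left key hh
  unfold phiM
  rw [← hl', ← hWdef, ← hUdef, ← hP]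
  linarith

/-- Up to the last step of the first phase the mean degree is at least one. -/
lemma np_ge_one (hn : 2 ≤ n) (hreg : ∀ k, k < iOne n → Reg n k) {i : ℕ} (hi : i ≤ iOne n) :
    1 ≤ (n:ℝ) * pp n i := by
  rcases i with _ | k
  · rw [pp_zero hn, mul_one]; exact_mod_cast (by omega : 1 ≤ n)
  · have hr := hreg k (by omega)
    have h6 := hr.small.mm_ge
    have hch : (0 : ℝ) < n.choose 2 := by exact_mod_cast Nat.choose_pos hn
    have h2 : pp n k / 2 ≤ pp n (k + 1) := by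
      rw [pp, pp, div_div, mul_comm, ← div_div]
      refine div_le_div_of_nonneg_right ?_ hch.le
      rw [mm, mm] at *
      push_cast
      linarith
    have h100 := hr.small.mu_big.trans hr.small.mu_le_np
    have := mul_le_mul_of_nonneg_left h2 (n.cast_nonneg : (0:ℝ) ≤ n)
    linarith

/-- The growth rate of the moment per unit of logarithmic time, times `log n`. -/
noncomputable def rateM (m : ℕ) : ℝ :=
  2 * (6 * (2 * (m : ℝ) + 2) + 2 * ((2 * (m : ℝ) + 2) ^ 2 * 2 ^ (2 * m))) +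
    2 * (3 * (2 * (m : ℝ) + 2) * 12 ^ (2 * m + 1) + 2 * ((2 * (m : ℝ) + 2) ^ 2 * 2 ^ (2 * m))
      * (4 * ((2 * (m : ℝ) + 2) ^ 2 * 2 ^ (2 * m))) ^ m)

lemma rateM_nonneg (m : ℕ) : 0 ≤ rateM m := by rw [rateM]; positivity

/-- One step of the combined moment inside the first phase. -/
theorem ev_step (m : ℕ) (hDW : Flags.Spec.DriftW) (hDU : Flags.Spec.DriftU)
    (hNW : Flags.Spec.NoiseW) (hNU : Flags.Spec.NoiseU) (hCon : Flags.Spec.Contract) (hm1 : 1 ≤ m) :
    ∀ᶠ n : ℕ in atTop, ∀ k E, Run n k E →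
      avg (phiM m n (k + 1)) E ≤ Real.exp (dt n k * (rateM m / Real.log n)) * phiM m n k E := by
  obtain ⟨C1, hC1, hDW⟩ := hDW
  obtain ⟨C2, hC2, hDU⟩ := hDU
  obtain ⟨C3, hC3, hNW⟩ := hNW
  obtain ⟨C4, hC4, hNU⟩ := hNU
  obtain ⟨C5, hC5, hCon⟩ := hCon
  set CW := 6 * (2 * (m : ℝ) + 2) + 2 * ((2 * (m : ℝ) + 2) ^ 2 * 2 ^ (2 * m)) with hCW
  set CU := 3 * (2 * (m : ℝ) + 2) * 12 ^ (2 * m + 1) + 2 * ((2 * (m : ℝ) + 2) ^ 2 * 2 ^ (2 * m))
    * (4 * ((2 * (m : ℝ) + 2) ^ 2 * 2 ^ (2 * m))) ^ m with hCU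
  have hCW0 : 0 ≤ CW := by positivity
  have hCU0 : 0 ≤ CU := by positivity
  clear_value CW CU
  have hlog := (Real.tendsto_log_atTop.comp tendsto_natCast_atTop_atTop).eventually_ge_atTop
    (max 1 (4 * CW * 2 ^ (2 * m + 2)))
  filter_upwards [ev_regime, ev_rates, eventually_ge_atTop 3, hlog,
    ev_le (2 * (C1 + C2)) 0 (a := -(17 / 50)) (b := -(317 / 1000)) (by norm_num),
    ev_le (C3 + C4) 0 (a := -(159 / 250)) (b := -(317 / 500)) (by norm_num),
    ev_le (C3 + C4) 0 (a := -(13 / 25)) (b := -(317 / 1000)) (by norm_num),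
    ev_le (3 * C5) 0 (a := -(1 / 20)) (b := -(3 / 62)) (by norm_num),
    ev_le (C5 * 16 ^ (2 * m + 2)) (2 * m + 3) (a := -(1 / 31)) (b := 0) (by norm_num)]
    with n hreg hrates hn hl hσd hσq hσj hA hG
  simp only [Function.comp_apply, max_le_iff] at hl
  obtain ⟨hl1, hlbig⟩ := hl
  simp only [pow_zero, mul_one, Real.rpow_zero] at hσd hσq hσj hA hG
  have hn0 : (0 : ℝ) < n := by exact_mod_cast (by omega : 0 < n)
  have hn1 : (1 : ℝ) ≤ n := by exact_mod_cast (by omega : 1 ≤ n)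
  have hpos : ∀ a : ℝ, 0 ≤ (n:ℝ) ^ a := fun a => Real.rpow_nonneg hn0.le a
  have hsig2 : sig n ^ 2 = (n:ℝ) ^ (-(317 / 500) : ℝ) := by
    rw [sig, pow_two, ← Real.rpow_add hn0]; norm_num
  have hgain2 : gain n ^ 2 = (n:ℝ) ^ (-(1 / 31) : ℝ) := by
    rw [gain, pow_two, ← Real.rpow_add hn0]; norm_num
  have hgain3 : gain n ^ 3 = (n:ℝ) ^ (-(3 / 62) : ℝ) := by
    rw [gain, pow_succ, pow_two, ← Real.rpow_add hn0, ← Real.rpow_add hn0]; norm_num
  have hs0 : 0 ≤ sig n := hpos _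
  set G := C5 * 16 ^ (2 * m + 2) * gain n ^ 2 with hGdef
  have hGl : Real.log n ^ (2 * m + 3) * G ≤ 1 := by
    refine le_trans (le_of_eq ?_) hG
    rw [hGdef, hgain2]; ring
  have hG0 : 0 ≤ G := by rw [hGdef, hgain2]; exact mul_nonneg (by positivity) (hpos _)
  set D := (2 * CW + 2 * CU) / Real.log n with hD
  have hDeq : rateM m / Real.log n = D := by rw [hD, rateM, hCW, hCU]
  intro k E ⟨hk, hgood⟩
  rw [hDeq]
  have hr := hreg k hk
  obtain ⟨R⟩ : PLift (Rates n k) := ⟨hrates k hk⟩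
  have herr : (envI n).v k + err (envI n) n k ≤ 2 * (n:ℝ) ^ (-(17 / 50) : ℝ) := by
    have h1 : (envI n).v k = (n:ℝ) ^ (-(17 / 50) : ℝ) := rfl
    linarith [R.err, Real.rpow_le_rpow_of_exponent_le hn1
      (show -(19 / 50 : ℝ) ≤ -(17 / 50) by norm_num)]
  have hds : ∀ {C : ℝ}, 0 ≤ C → C ≤ C1 + C2 → C * ((envI n).v k + err (envI n) n k) ≤ sig n :=
    fun {C} h1 h2 => by
      refine ((mul_le_mul_of_nonneg_left herr h1).trans ?_).trans hσd
      have := mul_le_mul_of_nonneg_right h2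
        (mul_nonneg zero_le_two (hpos (-(17 / 50) : ℝ)))
      linarith
  have hqs : ∀ {C q : ℝ}, 0 ≤ C → C ≤ C3 + C4 → q ≤ (n:ℝ) ^ (-(159 / 250) : ℝ) →
      C * q ≤ sig n ^ 2 := fun {C q} h1 h2 h3 => by
    rw [hsig2]
    exact ((mul_le_mul_of_nonneg_left h3 h1).trans
      (mul_le_mul_of_nonneg_right h2 (hpos _))).trans hσq
  have hjs : ∀ {C q : ℝ}, 0 ≤ C → C ≤ C3 + C4 → q ≤ (n:ℝ) ^ (-(13 / 25) : ℝ) →
      C * q ≤ sig n := fun {C q} h1 h2 h3 =>
    ((mul_le_mul_of_nonneg_left h3 h1).trans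
      (mul_le_mul_of_nonneg_right h2 (hpos _))).trans hσj
  have hSt : Step n k E (sig n) := ⟨hgood,
    fun e he => (hDW n k _ E hr.small hgood.good e he).trans (hds (by linarith) (by linarith)),
    fun b => (hDU n k _ _ E hr.small hgood hr.eta b).trans (hds (by linarith) (by linarith)),
    fun e he => ⟨(hNW n k _ E hr.small hgood.good e he).1.trans
        (hqs (by linarith) (by linarith) R.qW),
      fun t ht hR => ((hNW n k _ E hr.small hgood.good e he).2 t ht hR).trans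
        (hjs (by linarith) (by linarith) R.jW)⟩,
    fun b => ⟨(hNU n k _ _ E hr.small hgood hr.eta b).1.trans
        (hqs (by linarith) (by linarith) R.qU),
      fun t ht hR => ((hNU n k _ _ E hr.small hgood hr.eta b).2 t ht hR).trans
        (hjs (by linarith) (by linarith) R.jU)⟩⟩
  have hA3 : C5 * (etaI n k + (envI n).y k + 1 / mu n k) ≤ gain n ^ 3 := by
    rw [hgain3]
    have h1 : etaI n k = (n:ℝ) ^ (-(1 / 20) : ℝ) := rfl
    have h2 : (envI n).y k = (n:ℝ) ^ (-(13 / 100) : ℝ) := rfl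
    refine ((mul_le_mul_of_nonneg_left (c := 3 * (n:ℝ) ^ (-(1 / 20) : ℝ)) ?_
      (by linarith)).trans_eq (by ring)).trans hA
    linarith [R.invMu, Real.rpow_le_rpow_of_exponent_le hn1
        (show -(13 / 100 : ℝ) ≤ -(1 / 20) by norm_num),
      Real.rpow_le_rpow_of_exponent_le hn1 (show -(7 / 25 : ℝ) ≤ -(1 / 20) by norm_num)]
  have hgain1 : gain n ≤ 1 :=
    (Real.rpow_le_rpow_of_exponent_le hn1 (by norm_num)).trans_eq (Real.rpow_zero _)
  have hC := hCon n k (envI n) (etaI n) E (gain n) hr.small hgood hr.eta (hpos _) hgain1 hA3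
    (m + 1) (wc k E) (by omega)
  rw [show 2 * (m + 1) = 2 * m + 2 by ring,
    sum_congr rfl fun e (_ : e ∈ E) => (even_two_add m).pow_abs (wc k E e), ← hGdef] at hC
  refine (step_phi m hr hs0 le_rfl hSt hl1 hC hG0 hGl hCW0 hCU0 hCW hCU hlbig).trans ?_
  refine mul_le_mul_of_nonneg_right ?_ (phiM_nonneg m (by omega) hr.small.pp_pos.le E)
  rw [← hD, dt, if_pos hk]
  linarith [Real.add_one_le_exp (3 / mm n k * D)]

/-- Markov: a failure of `w` or `u` forces a large moment. -/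
lemma fail_le (m : ℕ) {k : ℕ} (hn : 1 ≤ n) (hnp : 1 ≤ (n:ℝ) * pp n k) (hl : 1 ≤ Real.log n)
    (F : St n) {w0 : ℝ} (hw0 : 0 ≤ w0)
    (hfail : (∃ e ∈ F, w0 < |wc k F e|) ∨ (∃ b, w0 < |uc k F b|)) :
    w0 ^ (2 * m + 2) ≤ phiM m n k F := by
  have hb0 : 0 ≤ base0 m n := by rw [base0, sig]; positivity
  have hW0 : 0 ≤ ∑ e ∈ F, wc k F e ^ (2 * m + 2) :=
    sum_nonneg fun e _ => (even_two_add m).pow_nonneg _
  have hU0 : 0 ≤ ∑ b : Fin n, uc k F b ^ (2 * m + 2) :=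
    sum_nonneg fun b _ => (even_two_add m).pow_nonneg _
  have hUP : ∑ b : Fin n, uc k F b ^ (2 * m + 2) ≤
      Real.log n ^ (2 * m + 2) * (n * pp n k * ∑ b : Fin n, uc k F b ^ (2 * m + 2)) :=
    (le_mul_of_one_le_left hU0 hnp).trans
      (le_mul_of_one_le_left (mul_nonneg (by linarith) hU0) (one_le_pow₀ hl))
  have hev := even_two_add m
  rw [phiM]
  rcases hfail with ⟨e, he, hlt⟩ | ⟨b, hlt⟩
  · have h1 : w0 ^ (2 * m + 2) ≤ wc k F e ^ (2 * m + 2) := by
      rw [← hev.pow_abs (wc k F e)]; exact pow_le_pow_left₀ hw0 hlt.le _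
    have h2 := single_le_sum (f := fun e => wc k F e ^ (2 * m + 2))
      (fun e _ => hev.pow_nonneg _) he
    linarith
  · have h1 : w0 ^ (2 * m + 2) ≤ uc k F b ^ (2 * m + 2) := by
      rw [← hev.pow_abs (uc k F b)]; exact pow_le_pow_left₀ hw0 hlt.le _
    have h2 := single_le_sum (f := fun b => uc k F b ^ (2 * m + 2))
      (fun b _ => hev.pow_nonneg _) (mem_univ b)
    linarith

/-- Markov at the threshold of the first phase. -/
lemma ev_num (m : ℕ) (K : ℝ) (hm : ((2 * m + 2 : ℕ) : ℝ) = 600) :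
    ∀ᶠ n : ℕ in atTop,
      1 / ((n:ℝ) ^ (-(3 / 10) : ℝ)) ^ (2 * m + 2) * (Real.exp K * base0 m n) ≤ 1 / (n:ℝ) ^ 7 := by
  filter_upwards [eventually_ge_atTop 1,
    ev_le (Real.exp K) (2 * m + 3) (a := -(41 / 5)) (b := -7) (by norm_num)] with n hn hfin
  have hn0 : (0 : ℝ) < n := by exact_mod_cast hn
  have e7 : 1 / (n:ℝ) ^ 7 = (n:ℝ) ^ (-7 : ℝ) := by
    rw [Real.rpow_neg hn0.le, one_div, show (7 : ℝ) = ((7 : ℕ) : ℝ) by norm_num,
      Real.rpow_natCast]
  rw [e7]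
  refine le_trans (le_of_eq ?_) hfin
  rw [base0, sig, ← Real.rpow_mul_natCast hn0.le, ← Real.rpow_mul_natCast hn0.le, hm,
    one_div, ← Real.rpow_neg hn0.le, ← Real.rpow_natCast (n:ℝ) 2,
    show (n:ℝ) ^ (-(41 / 5) : ℝ) = (n:ℝ) ^ (-(-(3 / 10) * 600) : ℝ)
      * (n:ℝ) ^ (((2 : ℕ) : ℝ)) * (n:ℝ) ^ (-(317 / 1000) * 600 : ℝ) by
        rw [← Real.rpow_add hn0, ← Real.rpow_add hn0]; norm_num]
  ring

open Classical in
/-- The failure of `w` or `u` up to the end of the first phase. -/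
theorem ev_moment (hDW : Flags.Spec.DriftW) (hDU : Flags.Spec.DriftU) (hNW : Flags.Spec.NoiseW)
    (hNU : Flags.Spec.NoiseU) (hCon : Flags.Spec.Contract) :
    ∀ᶠ n : ℕ in atTop, ∀ i, i ≤ iOne n →
      killed (Run n) i (fun k F => if (∃ e ∈ F, (envI n).w k < |wc k F e|) ∨
        (∃ b, (envI n).w k < |uc k F b|) then 1 else 0) 0 (complete n) ≤ 1 / (n:ℝ) ^ 7 := by
  obtain ⟨m, hm, hm1⟩ : ∃ m : ℕ, ((2 * m + 2 : ℕ) : ℝ) = 600 ∧ 1 ≤ m :=
    ⟨299, by norm_num, by norm_num⟩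
  have hlog := (Real.tendsto_log_atTop.comp tendsto_natCast_atTop_atTop).eventually_ge_atTop 1
  filter_upwards [ev_regime, eventually_ge_atTop 3, hlog,
    ev_step m hDW hDU hNW hNU hCon hm1, ev_num m (2 * rateM m) hm]
    with n hreg hn hl1 hstep hfin i hi
  simp only [Function.comp_apply] at hl1
  have hb0 : 0 ≤ base0 m n := by rw [base0, sig]; positivity
  have hinit : phiM m n 0 (complete n) = base0 m n := by
    rw [phiM, sum_eq_zero fun e he => by rw [wc_zero hn he, zero_pow (by omega)],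
      sum_eq_zero fun b _ => by rw [uc_zero hn b, zero_pow (by omega)]]
    ring
  have hp : ∀ j, j ≤ iOne n → 0 ≤ pp n j := fun j hj => by
    have := np_ge_one (by omega) hreg hj
    nlinarith
  have hkill : killed (Run n) i (fun j F => max (phiM m n j F) 0) 0 (complete n) ≤
      Real.exp (2 * rateM m) * base0 m n := by
    refine (killed_le_of_step Size (size_succ hreg) (fun j F => max (phiM m n j F) 0)
      (fun _ _ => le_max_right _ _) (fun j => Real.exp (dt n j * (rateM m / Real.log n)))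
      (fun _ => (Real.exp_pos _).le) (fun j E _ hg => ?_) i 0 (complete n) (size_zero n)).trans ?_
    · rw [avg_congr (g := phiM m n (j + 1)) fun F _ => max_eq_left
        (phiM_nonneg m (by omega) (hp _ (by have := hg.1; omega)) F)]
      exact (hstep j E hg).trans (mul_le_mul_of_nonneg_left (le_max_left _ _) (Real.exp_pos _).le)
    · simp only [zero_add]
      rw [hinit, max_eq_left hb0, ← Real.exp_sum, ← sum_mul]
      refine mul_le_mul_of_nonneg_right (Real.exp_le_exp.2 ?_) hb0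
      refine (mul_le_mul_of_nonneg_right (sum_dt_le (by omega) hreg i)
        (div_nonneg (rateM_nonneg m) (by linarith))).trans_eq ?_
      field_simp
  have hw0 : 0 ≤ (n:ℝ) ^ (-(3 / 10) : ℝ) := Real.rpow_nonneg n.cast_nonneg _
  have hw0pos : 0 < ((n:ℝ) ^ (-(3 / 10) : ℝ)) ^ (2 * m + 2) :=
    pow_pos (Real.rpow_pos_of_pos (by exact_mod_cast (by omega : 0 < n)) _) _
  refine (killed_mono i 0 (complete n) (g := fun k F =>
    (1 / ((n:ℝ) ^ (-(3 / 10) : ℝ)) ^ (2 * m + 2)) * max (phiM m n k F) 0) fun F _ => ?_).trans ?_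
  · simp only [zero_add]
    split_ifs with hfail
    · rw [one_div, inv_mul_eq_div, le_div_iff₀ hw0pos, one_mul]
      exact le_max_of_le_left
        (fail_le m (by omega) (np_ge_one (by omega) hreg hi) hl1 F hw0 hfail)
    · exact mul_nonneg (by positivity) (le_max_right _ _)
  · rw [killed_mul]
    exact (mul_le_mul_of_nonneg_left hkill (by positivity)).trans hfin

end Vale.Agent.P046.Phase.One
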