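import Vale.Agent.P046.Phase.Spec
import Mathlib.Analysis.SpecialFunctions.Pow.Asymptotics
import Mathlib.Analysis.SpecialFunctions.Log.Basic

/-!
# The numerical regime of the first phase

Up to `iOne` the density is above `n ^ (-9/25)`, so the mean codegree is at least `n ^ (7/25)`.
-/

namespace Vale.Agent.P046.Phase.One

open Finset Filter Flags

/-- Powers of logarithms are beaten by powers. -/
lemma ev_le (C : ℝ) (k : ℕ) {a b : ℝ} (h : a < b) :
    ∀ᶠ n : ℕ in atTop, C * Real.log n ^ k * (n:ℝ) ^ a ≤ (n:ℝ) ^ b := by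
  have hC : 0 < 1 / (|C| + 1) := by positivity
  have h1 := (isLittleO_log_rpow_rpow_atTop (k : ℝ) (sub_pos.2 h)).bound hC
  filter_upwards [tendsto_natCast_atTop_atTop.eventually h1, eventually_ge_atTop 2] with n hn hn2
  have hnpos : (0 : ℝ) < n := by exact_mod_cast (by omega : 0 < n)
  have hlog : 0 ≤ Real.log n := Real.log_nonneg (by exact_mod_cast (by omega : 1 ≤ n))
  rw [Real.rpow_natCast, Real.norm_of_nonneg (pow_nonneg hlog k),
    Real.norm_of_nonneg (Real.rpow_nonneg hnpos.le _)] at hn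
  have hp := Real.rpow_pos_of_pos hnpos (b - a)
  have hk : 0 ≤ Real.log n ^ k := pow_nonneg hlog k
  have h2 : C * Real.log n ^ k ≤ (n:ℝ) ^ (b - a) := by
    calc C * Real.log n ^ k ≤ (|C| + 1) * Real.log n ^ k :=
          mul_le_mul_of_nonneg_right (by linarith [le_abs_self C]) hk
      _ ≤ (|C| + 1) * (1 / (|C| + 1) * (n:ℝ) ^ (b - a)) :=
          mul_le_mul_of_nonneg_left hn (by positivity)
      _ = (n:ℝ) ^ (b - a) := by field_simp
  calc C * Real.log n ^ k * (n:ℝ) ^ a ≤ (n:ℝ) ^ (b - a) * (n:ℝ) ^ a :=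
        mul_le_mul_of_nonneg_right h2 (Real.rpow_nonneg hnpos.le _)
    _ = (n:ℝ) ^ b := by rw [← Real.rpow_add hnpos, sub_add_cancel]

/-- A negative power is eventually small. -/
lemma ev_small {a : ℝ} (h : a < 0) {d : ℝ} (hd : 0 < d) :
    ∀ᶠ n : ℕ in atTop, (n:ℝ) ^ a ≤ d := by
  filter_upwards [ev_le d⁻¹ 0 h] with n hn
  rw [pow_zero, mul_one, Real.rpow_zero, inv_mul_le_iff₀ hd, mul_one] at hn
  exact hn

lemma choose_two_ge {n : ℕ} (hn : 2 ≤ n) : (n:ℝ) ^ 2 / 4 ≤ (n.choose 2 : ℝ) := by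
  rw [Nat.cast_choose_two]
  have : (2 : ℝ) ≤ n := by exact_mod_cast hn
  nlinarith

lemma choose_two_le (n : ℕ) : (n.choose 2 : ℝ) ≤ (n:ℝ) ^ 2 := by
  exact_mod_cast (Nat.choose_le_pow n 2)

lemma pp_zero {n : ℕ} (hn : 2 ≤ n) : pp n 0 = 1 := by
  have : (n.choose 2 : ℝ) ≠ 0 := by exact_mod_cast (Nat.choose_pos hn).ne'
  simp [pp, mm, this]

lemma mm_lt_of_lt {n k : ℕ} (hk : k < iOne n) :
    (n.choose 2 : ℝ) * (n:ℝ) ^ (-(9 / 25) : ℝ) < mm n k := by
  have h := Nat.lt_ceil.1 hk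
  simp only [Real.rpow_eq_pow] at h
  rw [mm]
  linarith

/-- What is known at each step of the first phase. -/
structure Reg (n k : ℕ) : Prop where
  small : Small n (envI n) k
  eta : etaI n k ≤ 1 / 100
  pp_gt : (n:ℝ) ^ (-(9 / 25) : ℝ) < pp n k
  pp_le : pp n k ≤ 1
  mu_ge : (n:ℝ) ^ (7 / 25 : ℝ) ≤ mu n k
  mm_ge : (n:ℝ) ^ (8 / 5 : ℝ) ≤ mm n k
  np_ge : 1 ≤ n * pp n k
  tau_eq : (envI n).tau k = (n:ℝ) ^ (1 / 1000 : ℝ) * (1 + n * pp n k ^ 3)
  kap_eq : (envI n).kap k =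
    (n:ℝ) ^ (1 / 1000 : ℝ) * (1 + n * pp n k ^ 3 + (n:ℝ) ^ 2 * pp n k ^ 5)

theorem ev_regime : ∀ᶠ n : ℕ in atTop, ∀ k, k < iOne n → Reg n k := by
  filter_upwards [eventually_ge_atTop 1000,
    ev_small (a := -(13 / 100)) (by norm_num) (d := 1 / 100) (by norm_num),
    ev_small (a := -(1 / 20)) (by norm_num) (d := 1 / 100) (by norm_num),
    ev_le 4 0 (a := 8 / 5) (b := 41 / 25) (by norm_num),
    ev_le 100 0 (a := 0) (b := 7 / 25) (by norm_num)] with n hn hy heta hmm hmu k hk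
  have hn1 : (1 : ℝ) ≤ n := by exact_mod_cast (by omega : 1 ≤ n)
  have hn1000 : (1000 : ℝ) ≤ n := by exact_mod_cast hn
  have hn0 : (0 : ℝ) < n := by linarith
  have hch : (0 : ℝ) < n.choose 2 := by exact_mod_cast Nat.choose_pos (by omega : 2 ≤ n)
  set x := (n:ℝ) ^ (-(9 / 25) : ℝ) with hx
  have hx0 : 0 < x := Real.rpow_pos_of_pos hn0 _
  have hlt := mm_lt_of_lt hk
  have hpp : x < pp n k := by
    rw [pp, lt_div_iff₀ hch]; linarith
  have hpp1 : pp n k ≤ 1 := by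
    rw [pp, mm, div_le_one hch]
    linarith [(Nat.cast_nonneg k : (0:ℝ) ≤ k)]
  have hmu7 : (n:ℝ) ^ (7 / 25 : ℝ) ≤ mu n k := by
    have h2 : x ^ 2 ≤ pp n k ^ 2 := pow_le_pow_left₀ hx0.le hpp.le 2
    have h3 : (n:ℝ) * x ^ 2 = (n:ℝ) ^ (7 / 25 : ℝ) := by
      rw [_root_.sq, hx, ← Real.rpow_add hn0]
      conv_lhs => rw [← Real.rpow_one (n:ℝ)]
      rw [Real.rpow_one, ← Real.rpow_one_add' hn0.le (by norm_num)]
      norm_num
    rw [← h3, mu]
    exact mul_le_mul_of_nonneg_left h2 hn0.le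
  have hmm8 : (n:ℝ) ^ (8 / 5 : ℝ) ≤ mm n k := by
    refine le_trans ?_ hlt.le
    have h4 := mul_le_mul_of_nonneg_right (choose_two_ge (by omega : 2 ≤ n)) hx0.le
    have h5 : (n:ℝ) ^ 2 * x = (n:ℝ) ^ (41 / 25 : ℝ) := by
      rw [hx, ← Real.rpow_natCast (n:ℝ) 2, ← Real.rpow_add hn0]
      norm_num
    simp only [pow_zero, mul_one] at hmm
    linarith
  have hroom : (3 * k + 6 : ℕ) ≤ n.choose 2 := by
    have h6 : (6 : ℝ) ≤ (n:ℝ) ^ (8 / 5 : ℝ) := by
      linarith [Real.self_le_rpow_of_one_le hn1 (by norm_num : (1:ℝ) ≤ 8 / 5)]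
    have : ((3 * k + 6 : ℕ) : ℝ) ≤ (n.choose 2 : ℝ) := by
      push_cast; rw [mm] at hmm8; linarith
    exact_mod_cast this
  have hmu100 : 100 ≤ mu n k := by
    simp only [pow_zero, mul_one, Real.rpow_zero] at hmu
    linarith
  have hnp : 1 ≤ (n:ℝ) * pp n k := by
    have : mu n k ≤ n * pp n k := by
      rw [mu, _root_.sq]
      exact mul_le_mul_of_nonneg_left (mul_le_of_le_one_left (hx0.le.trans hpp.le) hpp1) hn0.le
    exact le_trans (by norm_num) (hmu100.trans this)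
  have hif : Real.rpow n (-(41 / 100)) ≤ pp n k := by
    rw [Real.rpow_eq_pow]
    exact (Real.rpow_le_rpow_of_exponent_le hn1 (by norm_num)).trans hpp.le
  have htau : (envI n).tau k = (n:ℝ) ^ (1 / 1000 : ℝ) * (1 + n * pp n k ^ 3) := by
    show tauE n k = _; rw [tauE, if_pos hif, Real.rpow_eq_pow]
  have hkap : (envI n).kap k =
      (n:ℝ) ^ (1 / 1000 : ℝ) * (1 + n * pp n k ^ 3 + (n:ℝ) ^ 2 * pp n k ^ 5) := by
    show kapE n k = _; rw [kapE, if_pos hif, Real.rpow_eq_pow]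
  have hp0 : 0 ≤ pp n k := hx0.le.trans hpp.le
  have h1000 : (1 : ℝ) ≤ (n:ℝ) ^ (1 / 1000 : ℝ) := Real.one_le_rpow hn1 (by norm_num)
  have hle : ∀ a : ℝ, a ≤ -(13 / 100) → (n:ℝ) ^ a ≤ 1 / 100 := fun a ha =>
    (Real.rpow_le_rpow_of_exponent_le hn1 ha).trans hy
  refine ⟨⟨by omega, hmu100, hroom, ?_, ?_, ?_, ?_, ?_, ?_, ?_, ?_, ?_, ?_⟩, ?_, hpp, hpp1, hmu7,
    hmm8, hnp, htau, hkap⟩
  any_goals (simp only [envI, Real.rpow_eq_pow]; positivity)
  · exact hle _ (by norm_num)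
  · exact hle _ (by norm_num)
  · exact hle _ (by norm_num)
  · exact (hle _ (by norm_num)).trans (by norm_num)
  · rw [htau]; exact one_le_mul_of_one_le_of_one_le h1000 (le_add_of_nonneg_right (by positivity))
  · rw [hkap]
    refine one_le_mul_of_one_le_of_one_le h1000 ?_
    have : 0 ≤ (n:ℝ) * pp n k ^ 3 := by positivity
    have : 0 ≤ (n:ℝ) ^ 2 * pp n k ^ 5 := by positivity
    linarith
  · exact heta

end Vale.Agent.P046.Phase.One
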