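import Vale.Agent.P046.Phase.One.Regime
import Vale.Agent.P046.Flags.Basic

/-!
# Tails of the tracked observables in the first phase

A two sided exponential tail for an observable at a root, stated with exponents of `n`.
-/

namespace Vale.Agent.P046.Phase.One

open Finset Filter Chain Flags Phase.Spec

variable {n : ℕ}

/-- The event of the first phase, cut at its last step. -/
def Run (n : ℕ) (i : ℕ) (E : St n) : Prop := i < iOne n ∧ GoodI (envI n) (etaI n) i E

/-- The killed expectation only sees the event at the times before the last one. -/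
lemma killed_congr_good {G G' : ℕ → St n → Prop} (f : ℕ → St n → ℝ) :
    ∀ (k j : ℕ) (E : St n), (∀ a, j ≤ a → a < j + k → ∀ F, G a F ↔ G' a F) →
      killed G k f j E = killed G' k f j E := by
  intro k
  induction k with
  | zero => intros; rfl
  | succ k ih =>
    intro j E h
    by_cases hg : G j E
    · rw [killed_succ_of_good hg, killed_succ_of_good ((h j le_rfl (by omega) E).1 hg)]
      exact avg_congr fun F _ => ih (j + 1) F fun a ha ha' => h a (by omega) (by omega)
    · rw [killed_succ_of_not_good hg,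
        killed_succ_of_not_good fun h' => hg ((h j le_rfl (by omega) E).2 h')]

lemma killed_safe_eq {i : ℕ} (hi : i ≤ iOne n) (f : ℕ → St n → ℝ) (E : St n) :
    killed (Safe n) i f 0 E = killed (Run n) i f 0 E := by
  refine killed_congr_good f i 0 E fun a _ ha F => ?_
  have ha' : a < iOne n := by omega
  exact ⟨fun h => ⟨ha', h.1 ha'.le⟩, fun h => ⟨fun _ => h.2, fun h' => absurd h' (by omega)⟩⟩

lemma size_zero (n : ℕ) : Size 0 (complete n) :=
  ⟨subset_rfl, by simp [complete, card_powersetCard]⟩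

lemma size_succ (hreg : ∀ k, k < iOne n → Reg n k) :
    ∀ k E F, Size k E → Run n k E → Succ E F → Size (k + 1) F := by
  intro k E F hk hg hF
  have hne := Flags.triangles_ne_empty (hreg k hg.1).small hg.2.good
  rcases hF with ⟨_, h0⟩ | ⟨t, ht, rfl⟩
  · exact absurd h0 hne
  · refine ⟨sdiff_subset.trans hk.1, ?_⟩
    have := three_le_card ht
    have := hk.2
    rw [card_sdiff_sides ht]
    omega

/-- Comparison of killed expectations on the states satisfying the invariant. -/
lemma killed_mono_inv {G : ℕ → St n → Prop} {Inv : ℕ → St n → Prop}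
    (hInv : ∀ i E F, Inv i E → G i E → Succ E F → Inv (i + 1) F) {f g : ℕ → St n → ℝ} :
    ∀ (k j : ℕ) (E : St n), Inv j E → (∀ F, Inv (j + k) F → f (j + k) F ≤ g (j + k) F) →
      killed G k f j E ≤ killed G k g j E := by
  intro k
  induction k with
  | zero => exact fun j E hE h => h E hE
  | succ k ih =>
    intro j E hE h
    by_cases hg : G j E
    · rw [killed_succ_of_good hg, killed_succ_of_good hg]
      refine avg_mono fun F hF => ih (j + 1) F (hInv j E F hE hg hF) fun F' hF' => ?_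
      rw [show j + 1 + k = j + (k + 1) by omega] at hF' ⊢
      exact h F' hF'
    · rw [killed_succ_of_not_good hg, killed_succ_of_not_good hg]

/-- Logarithmic time of a step of the first phase. -/
noncomputable def dt (n k : ℕ) : ℝ := if k < iOne n then 3 / mm n k else 0

lemma dt_nonneg (hreg : ∀ k, k < iOne n → Reg n k) (k : ℕ) : 0 ≤ dt n k := by
  rw [dt]
  split_ifs with h
  · exact div_nonneg (by norm_num) ((Real.rpow_nonneg n.cast_nonneg _).trans (hreg k h).mm_ge)
  · exact le_rfl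

lemma sum_dt_le (hn : 2 ≤ n) (hreg : ∀ k, k < iOne n → Reg n k) (i : ℕ) :
    ∑ b ∈ range i, dt n b ≤ 2 * Real.log n := by
  have hch : (1 : ℝ) ≤ n.choose 2 := by exact_mod_cast Nat.choose_pos hn
  have key : ∀ i, ∑ b ∈ range i, dt n b
      ≤ Real.log (n.choose 2) - Real.log (mm n (min i (iOne n))) ∧
        1 ≤ mm n (min i (iOne n)) := by
    intro i
    induction i with
    | zero => simp [mm, hch]
    | succ i ih =>
      rw [sum_range_succ]
      by_cases hi : i < iOne n
      · rw [min_eq_left hi.le] at ih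
        rw [min_eq_left (by omega : i + 1 ≤ iOne n), dt, if_pos hi]
        have hm := (hreg i hi).small.mm_ge
        have hs : mm n (i + 1) = mm n i - 3 := by rw [mm, mm]; push_cast; ring
        have h1 := Real.log_le_sub_one_of_pos
          (div_pos (by linarith : 0 < mm n i - 3) (by linarith : 0 < mm n i))
        rw [Real.log_div (by linarith) (by linarith)] at h1
        have h2 : (mm n i - 3) / mm n i - 1 = -(3 / mm n i) := by
          rw [sub_div, div_self (by linarith)]; ring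
        rw [hs]
        exact ⟨by linarith [ih.1], by linarith⟩
      · rw [dt, if_neg hi, add_zero, min_eq_right (by omega : iOne n ≤ i + 1)]
        rw [min_eq_right (by omega : iOne n ≤ i)] at ih
        exact ih
  obtain ⟨h1, h2⟩ := key i
  have h3 : Real.log (n.choose 2) ≤ 2 * Real.log n := by
    have h := Real.log_le_log (by linarith : (0 : ℝ) < n.choose 2) (choose_two_le n)
    rwa [Real.log_pow, Nat.cast_ofNat] at h
  linarith [Real.log_nonneg h2]

lemma avg_inc {k : ℕ} (hm : mm n k ≠ 0) (R : St n) (f : ℕ → St n → ℝ) (E : St n) :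
    avg (fun F => if R ⊆ F then f (k + 1) F - f k E else 0) E = 3 / mm n k * inc R f k E := by
  rw [inc]; field_simp

lemma avg_sq {k : ℕ} (hm : mm n k ≠ 0) (R : St n) (f : ℕ → St n → ℝ) (E : St n) :
    avg (fun F => if R ⊆ F then (f (k + 1) F - f k E) ^ 2 else 0) E
      = 3 / mm n k * Flags.sq R f k E := by
  rw [Flags.sq]; field_simp

open Classical in
/-- One sided tail of an observable at the root `R`. -/
theorem tail_one (hn : 2 ≤ n) (hreg : ∀ k, k < iOne n → Reg n k) (R : St n)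
    (f : ℕ → St n → ℝ) (a q J θ l : ℝ) (ha : 0 ≤ a) (hq : 0 ≤ q) (hl : 0 ≤ l) (hlJ : l * J ≤ 1)
    (hb : ∀ k E, Run n k E → R ⊆ E → inc R f k E ≤ a ∧ Flags.sq R f k E ≤ q ∧ JumpLE R f k E J)
    (h0 : f 0 (complete n) + 2 * Real.log n * a ≤ θ / 2) (i : ℕ) :
    killed (Run n) i (fun k F => if R ⊆ F ∧ θ < f k F then 1 else 0) 0 (complete n)
      ≤ Real.exp (-(l * (θ / 2)) + l ^ 2 * (2 * Real.log n * q)) := by
  have hsum := sum_dt_le hn hreg i
  have h := killed_tail (Good := Run n) Size (size_succ hreg) (fun F => R ⊆ F)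
    (fun E F hF hA => hA.trans hF.subset) f (fun k => dt n k * a) (fun k => dt n k * q)
    (fun _ => J) l hl (fun _ => hlJ)
    (fun k E hk hg hA F hF hAF => by
      rcases hF with ⟨_, hem⟩ | ⟨t, ht, rfl⟩
      · exact absurd hem (Flags.triangles_ne_empty (hreg k hg.1).small hg.2.good)
      · exact (hb k E hg hA).2.2 t ht hAF)
    (fun k E hk hg hA => by
      have hm := (hreg k hg.1).small.mm_ge
      rw [dt, if_pos hg.1]
      refine le_of_eq_of_le ?_ (mul_le_mul_of_nonneg_left (hb k E hg hA).1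
        (div_nonneg (by norm_num) (by linarith : (0:ℝ) ≤ mm n k)))
      rw [← avg_inc (by linarith) R f E]
      congr!)
    (fun k E hk hg hA => by
      have hm := (hreg k hg.1).small.mm_ge
      rw [dt, if_pos hg.1]
      refine le_of_eq_of_le ?_ (mul_le_mul_of_nonneg_left (hb k E hg hA).2.1
        (div_nonneg (by norm_num) (by linarith : (0:ℝ) ≤ mm n k)))
      rw [← avg_sq (by linarith) R f E]
      congr!)
    i 0 (complete n) (size_zero n) (θ / 2)
  simp only [zero_add, ← sum_mul] at h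
  refine le_trans (killed_mono i 0 (complete n) fun F _ => ?_) (h.trans (Real.exp_le_exp.2 ?_))
  · have hS := mul_le_mul_of_nonneg_right hsum ha
    by_cases hF : R ⊆ F ∧ θ < f (0 + i) F
    · rw [if_pos hF, if_pos ⟨hF.1, by linarith [hF.2]⟩]
    · rw [if_neg hF]; split_ifs <;> norm_num
  · exact add_le_add le_rfl
      (mul_le_mul_of_nonneg_left (mul_le_mul_of_nonneg_right hsum hq) (sq_nonneg l))

open Classical in
/-- Two sided tail of an observable at the root `R`. -/
theorem tail_two (hn : 2 ≤ n) (hreg : ∀ k, k < iOne n → Reg n k) (R : St n)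
    (f : ℕ → St n → ℝ) (a q J θ l : ℝ) (ha : 0 ≤ a) (hq : 0 ≤ q) (hl : 0 ≤ l) (hlJ : l * J ≤ 1)
    (hb : ∀ k E, Run n k E → R ⊆ E →
      |inc R f k E| ≤ a ∧ Flags.sq R f k E ≤ q ∧ JumpLE R f k E J)
    (h0 : |f 0 (complete n)| + 2 * Real.log n * a ≤ θ / 2) (i : ℕ) :
    killed (Run n) i (fun k F => if R ⊆ F ∧ θ < |f k F| then 1 else 0) 0 (complete n)
      ≤ 2 * Real.exp (-(l * (θ / 2)) + l ^ 2 * (2 * Real.log n * q)) := by
  have hp := tail_one hn hreg R f a q J θ l ha hq hl hlJ
    (fun k E hg hA => ⟨(abs_le.1 (hb k E hg hA).1).2, (hb k E hg hA).2⟩)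
    (by linarith [le_abs_self (f 0 (complete n))]) i
  have hneg : ∀ k E, inc R (fun k F => -f k F) k E = -inc R f k E := by
    intro k E
    rw [inc, inc, ← mul_neg]
    congr 1
    refine Eq.trans ?_ ((avg_mul (-1) _ E).trans (neg_one_mul _))
    refine avg_congr fun F _ => ?_
    split_ifs <;> ring
  have hm := tail_one hn hreg R (fun k F => -f k F) a q J θ l ha hq hl hlJ
    (fun k E hg hA => by
      obtain ⟨h1, h2, h3⟩ := hb k E hg hA
      refine ⟨by rw [hneg]; linarith [(abs_le.1 h1).1], ?_, fun t ht hR => ?_⟩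
      · refine le_of_eq_of_le ?_ h2
        simp only [Flags.sq]
        congr 1
        refine avg_congr fun F _ => ?_
        split_ifs <;> ring
      · have := h3 t ht hR
        rwa [show -f (k + 1) (E \ sides t) - -f k E = -(f (k + 1) (E \ sides t) - f k E) by ring,
          abs_neg])
    (by linarith [neg_le_abs (f 0 (complete n))]) i
  rw [two_mul (Real.exp _)]
  refine le_trans ?_ (add_le_add hp hm)
  rw [← killed_add_fun]
  refine killed_mono i 0 (complete n) fun F _ => ?_
  by_cases hF : R ⊆ F ∧ θ < |f (0 + i) F|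
  · rw [if_pos hF]
    rcases lt_abs.1 hF.2 with h | h
    · rw [if_pos ⟨hF.1, h⟩]; split_ifs <;> norm_num
    · rw [if_pos (⟨hF.1, h⟩ : R ⊆ F ∧ θ < -f (0 + i) F)]; split_ifs <;> norm_num
  · rw [if_neg hF]; split_ifs <;> norm_num

/-- The bound on one tail. -/
noncomputable def tiny (n : ℕ) : ℝ := 2 * Real.exp (-(n:ℝ) ^ (1 / 250 : ℝ))

lemma ev_tiny : ∀ᶠ n : ℕ in atTop, tiny n * (n:ℝ) ^ 20 ≤ 1 := by
  have h := tendsto_rpow_mul_exp_neg_mul_atTop_nhds_zero 5000 1 one_pos
  have hx : Tendsto (fun n : ℕ => (n:ℝ) ^ (1 / 250 : ℝ)) atTop atTop :=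
    (tendsto_rpow_atTop (by norm_num)).comp tendsto_natCast_atTop_atTop
  filter_upwards [(h.comp hx).eventually_le_const (u := 1 / 2) (by norm_num)] with n hn
  simp only [Function.comp_apply, neg_mul, one_mul, ← Real.rpow_mul n.cast_nonneg] at hn
  rw [show (1 / 250 : ℝ) * 5000 = ((20 : ℕ) : ℝ) by norm_num, Real.rpow_natCast] at hn
  rw [tiny]
  linarith

open Classical in
/-- The tail in terms of exponents. -/
theorem ev_tail (C : ℝ) (hC : 0 ≤ C) (θ a q J l : ℝ) (ha : a < θ) (hθ : -1 < θ) (hJ : l + J < 0)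
    (hq : l + q < θ) (hl : 1 / 250 < l + θ) :
    ∀ᶠ n : ℕ in atTop, ∀ (R : St n) (f : ℕ → St n → ℝ),
      |f 0 (complete n)| ≤ C * (n:ℝ) ^ (-1 : ℝ) →
      (∀ k E, Run n k E → R ⊆ E → |inc R f k E| ≤ C * (n:ℝ) ^ a ∧
        Flags.sq R f k E ≤ C * (n:ℝ) ^ q ∧ JumpLE R f k E (C * (n:ℝ) ^ J)) →
      ∀ i, killed (Run n) i (fun k F => if R ⊆ F ∧ (n:ℝ) ^ θ < |f k F| then 1 else 0) 0
        (complete n) ≤ tiny n := by
  filter_upwards [ev_regime, eventually_ge_atTop 2, ev_le (8 * C) 1 ha, ev_le (4 * C) 0 hθ,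
    ev_le C 0 hJ, ev_le (8 * C) 1 hq, ev_le 4 0 hl]
    with n hreg hn h1 h2 h3 h4 h5 R f h0 hb i
  have hnpos : (0 : ℝ) < n := by exact_mod_cast (by omega : 0 < n)
  have hlog : 0 ≤ Real.log n := Real.log_nonneg (by exact_mod_cast (by omega : 1 ≤ n))
  simp only [pow_one, pow_zero, mul_one] at h1 h2 h3 h4 h5
  have hlJ : (n:ℝ) ^ l * (C * (n:ℝ) ^ J) ≤ 1 := by
    rw [Real.rpow_zero] at h3
    rw [show (n:ℝ) ^ l * (C * (n:ℝ) ^ J) = C * ((n:ℝ) ^ l * (n:ℝ) ^ J) by ring,
      ← Real.rpow_add hnpos]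
    exact h3
  refine (tail_two hn hreg R f (C * (n:ℝ) ^ a) (C * (n:ℝ) ^ q) (C * (n:ℝ) ^ J) ((n:ℝ) ^ θ)
    ((n:ℝ) ^ l) (by positivity) (by positivity) (by positivity) hlJ hb (by linarith) i).trans ?_
  rw [tiny]
  refine mul_le_mul_of_nonneg_left (Real.exp_le_exp.2 ?_) (by norm_num)
  have e1 : (n:ℝ) ^ l * (n:ℝ) ^ θ = (n:ℝ) ^ (l + θ) := (Real.rpow_add hnpos _ _).symm
  have e2 : ((n:ℝ) ^ l) ^ 2 * (n:ℝ) ^ q = (n:ℝ) ^ l * (n:ℝ) ^ (l + q) := by
    rw [Real.rpow_add hnpos]; ring
  have h6 := mul_le_mul_of_nonneg_left h4 (Real.rpow_nonneg hnpos.le l)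
  calc -((n:ℝ) ^ l * ((n:ℝ) ^ θ / 2)) + ((n:ℝ) ^ l) ^ 2 * (2 * Real.log n * (C * (n:ℝ) ^ q))
      = -((n:ℝ) ^ (l + θ) / 2)
          + (1 / 4) * ((n:ℝ) ^ l * (8 * C * Real.log n * (n:ℝ) ^ (l + q))) := by
        rw [← e1, Real.rpow_add hnpos]; ring
    _ ≤ -((n:ℝ) ^ (1 / 250 : ℝ)) := by
        have : (n:ℝ) ^ l * (8 * C * Real.log n * (n:ℝ) ^ (l + q)) ≤ (n:ℝ) ^ (l + θ) :=
          h6.trans_eq e1
        linarith

end Vale.Agent.P046.Phase.One
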